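import Crest.Agent.PVc.R26.Lin
import Crest.Agent.PVc.R26.Defs
import Crest.Agent.PVc.R8.Prime
import Crest.Agent.PVc.R5.Defs
import Crest.Agent.PVc.R8.Defs
import Crest.Agent.PVc.R5.TV
import Crest.Agent.PVc.R5.CRT
import Crest.Agent.PVc.R8.Selberg
import Crest.Agent.PVc.R5.Mertens
import Crest.Agent.PVc.R26.BH
import Crest.Agent.PVc.R26.PDDefs
import Crest.Agent.PVc.R27.Iface
import Crest.Agent.PVc.R5.Point
import Crest.Agent.PVc.R26.Plan_Mg
import Crest.Agent.PVc.R26.Param_Mg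
import Crest.Agent.PVc.R26.Box2_Mg
import Crest.Agent.PVc.R26.MajCore_Mg
import Crest.Agent.PVc.R26.Psi
import Crest.Statements.S0022
import Crest.Agent.PVc.R17.Final_Mg

-- ▼ part PVc/R26/Trace
section

/-! Row 26: the abstract trace bound. -/

set_option autoImplicit false

namespace Crest.Agent.R26

open Finset Filter
open Crest.Agent.R5 (pr pd ee nit)

theorem trace : MemIdStmt → MemFreeStmt → MemRestStmt → CountStmt → TraceStmt := by
  intro hI hF hR hC σ _ S V bk cl K K₁ K₂ Jd κ n W lam ρ a₀ a₁ a₂ b₀ b₁ b₂ hA hA₁ hA₂ hK hn hκ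
    hl hρ ha₀ ha₁ ha₂ hb₀ hb₁ hb₂ hop h1 h2 hrow
  have hO : OpB (mst S V bk κ) (mop S bk cl K) (lam + 2 * 3 ^ Jd * √((a₁ + a₂) * (a₀ + a₁)) +
      2 * 3 ^ Jd * √((b₁ + b₂) * (b₀ + b₁))) := by
    refine (((hF σ S V bk cl K Jd κ lam hA hl hop).add
      (hR σ S V bk cl K₁ Jd κ _ _ _ hA₁ ha₀ ha₁ ha₂ h1)).sub
      (hR σ S V bk cl K₂ Jd κ _ _ _ hA₂ hb₀ hb₁ hb₂ h2)).congr fun s _ s' _ => ?_
    unfold mop
    rw [hK]
    split_ifs <;> ring
  set L := lam + 2 * 3 ^ Jd * √((a₁ + a₂) * (a₀ + a₁)) + 2 * 3 ^ Jd * √((b₁ + b₂) * (b₀ + b₁))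
  have hL : 0 ≤ L := by positivity
  rw [sum_comm, ← nsmul_eq_mul]
  refine sum_le_card_nsmul _ _ _ fun v hv => ?_
  have h3 := (abs_le.1 (hC σ S V bk cl K Jd n W ρ hA hρ hrow v hv)).2
  rw [hI σ S V bk cl K Jd κ n hA hn hκ v hv] at h3
  have h4 := hO.pw_le hL n (v := (v, fun _ => none)) (mem_filter.2 ⟨mem_product.2 ⟨hv,
    Fintype.mem_piFinset.2 fun _ => none_mem_insertNone⟩, fun _ _ => rfl, by simp [mcard]⟩)
  have h5 : ∏ p ∈ bk v, 1 / (p : ℝ) ≤ 1 := prod_le_one (fun _ _ => by positivity) fun p hp =>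
    (div_le_one (by exact_mod_cast (hA.prime p (hA.sub v hv hp)).pos)).2
      (by exact_mod_cast (hA.prime p (hA.sub v hv hp)).one_le)
  have h6 : 0 ≤ ∏ p ∈ bk v, 1 / (p : ℝ) := prod_nonneg fun _ _ => by positivity
  have h7 := (mul_le_mul_of_nonneg_left (le_abs_self _) h6).trans
    ((mul_le_mul h5 h4 (abs_nonneg _) zero_le_one).trans_eq (one_mul _))
  have h8 := mul_le_mul_of_nonneg_left h7 (Nat.cast_nonneg (α := ℝ) W)
  linarith

end Crest.Agent.R26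
end

-- ▼ part PVc/R26/PrimeT
section

/-! Row 26: twisted prime sums. -/

set_option autoImplicit false

namespace Crest.Agent.R26

open Finset Filter
open Crest.Agent.R5 (pr pd ee nit)

namespace PrimeT

open Crest.Agent.R8.Prime ArithmeticFunction

/-- Removal of the weight `log p`. -/
theorem unlog (r a X : ℕ) (t : ℝ) {M : ℝ} (hM : 0 ≤ M) (h : ∀ N ≤ X,
    ‖∑ n ∈ Icc 1 N, if n.Prime ∧ n ≡ a [MOD r] then (Real.log n : ℂ) * nit n t else 0‖ ≤ M) :
    ‖∑ n ∈ Ioc 0 X, if n.Prime ∧ n ≡ a [MOD r] then nit n t else 0‖ ≤ M * 2 := by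
  have h2 : (0 : ℝ) < Real.log 2 := Real.log_pos (by norm_num)
  have hm : ∀ n : ℕ, Real.log 2 ≤ Real.log (max n 2 : ℕ) := fun n =>
    Real.log_le_log (by norm_num) (by exact_mod_cast le_max_right n 2)
  have h1 := abel (fun n => if n.Prime ∧ n ≡ a [MOD r] then (Real.log n : ℂ) * nit n t else 0)
    (w := fun n => (Real.log (max n 2 : ℕ))⁻¹)
    (fun m n hmn => inv_anti₀ (h2.trans_le (hm m)) (Real.log_le_log
      (by exact_mod_cast lt_max_of_lt_right two_pos) (by exact_mod_cast max_le_max_right 2 hmn)))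
    (fun n => inv_nonneg.2 (h2.le.trans (hm n))) h
  have h3 : (Real.log (max 0 2 : ℕ))⁻¹ ≤ 2 := by
    refine inv_le_of_inv_le₀ (by norm_num) (le_trans ?_ (hm 0))
    linarith [Real.log_two_gt_d9]
  refine le_trans (le_of_eq (congrArg norm (sum_congr rfl fun n _ => ?_)))
    (h1.trans (mul_le_mul_of_nonneg_left h3 hM))
  split_ifs with hp
  · have h4 : (Real.log n : ℂ) ≠ 0 := by
      exact_mod_cast (Real.log_pos (by exact_mod_cast hp.1.one_lt)).ne'
    rw [max_eq_left hp.1.two_le, Complex.ofReal_inv, inv_mul_cancel_left₀ h4]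
  · rw [mul_zero]

theorem main_le {r : ℕ} (hr : 1 ≤ r) {y t : ℝ} (hy : 0 < y) (ht : t ≠ 0) :
    ‖(y : ℂ) ^ (1 - (t : ℂ) * Complex.I) / ((1 - (t : ℂ) * Complex.I) * (r.totient : ℂ))‖ ≤
      y / |t| := by
  have h1 : (1 : ℝ) ≤ r.totient := by exact_mod_cast Nat.totient_pos.2 hr
  have h2 := Complex.abs_im_le_norm (1 - (t : ℂ) * Complex.I)
  rw [show (1 - (t : ℂ) * Complex.I).im = -t by simp, abs_neg] at h2
  rw [norm_div, norm_mul, Complex.norm_cpow_eq_rpow_re_of_pos hy, Complex.norm_natCast,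
    show (1 - (t : ℂ) * Complex.I).re = 1 by simp, Real.rpow_one]
  exact div_le_div_of_nonneg_left hy.le (abs_pos.2 ht)
    (h2.trans (le_mul_of_one_le_right (norm_nonneg _) h1))

end PrimeT

open PrimeT Crest.Agent.R8.Prime in
theorem primeT : PsiStmt → PrimeTStmt := by
  rintro ⟨δ, C, h0, h1, hC, h⟩
  refine ⟨δ, 8 * C + 128, h0, by positivity, fun r b P t hr hP ht => ?_⟩
  have hr' : (1 : ℝ) ≤ r := by exact_mod_cast hr
  have hP' : (1 : ℝ) ≤ P := by exact_mod_cast hr.trans hP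
  obtain ⟨L, hL⟩ : ∃ L, L = Real.log (r * (|t| + 2)) := ⟨_, rfl⟩
  have hL2 : 1 / 2 ≤ L := by
    have := Real.log_le_log two_pos (show (2 : ℝ) ≤ r * (|t| + 2) by nlinarith [abs_nonneg t])
    linarith [Real.log_two_gt_d9]
  have hL0 : 0 ≤ L := by linarith
  rw [← hL]
  by_cases hb : Nat.Coprime b r
  swap
  · rw [sum_eq_zero, norm_zero]
    · positivity
    · intro p hp
      obtain ⟨p1, p2, p3⟩ := mem_filter.1 hp
      refine absurd ?_ hb
      rw [Nat.Coprime, ← p3.gcd_eq]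
      exact (Nat.coprime_of_lt_prime (by omega) (hP.trans_lt (mem_Ioc.1 p1).1) p2)
  have key : ∀ X ≤ 2 * P, ‖∑ n ∈ Ioc 0 X, if n.Prime ∧ n ≡ b [MOD r] then nit n t else 0‖ ≤
      (2 * (P / |t|) + (2 * C + 32) * ((P : ℝ) ^ (1 - δ) * L)) * 2 := fun X hX => by
    refine unlog r b X t (by positivity) fun N hN => ?_
    rcases Nat.eq_zero_or_pos N with rfl | hN0
    · rw [Icc_eq_empty (by norm_num), sum_empty, norm_zero]
      positivity
    have hN1 : (1 : ℝ) ≤ N := by exact_mod_cast hN0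
    have hN2 : (N : ℝ) ≤ 2 * P := by exact_mod_cast hN.trans hX
    have a1 : (N : ℝ) ^ (1 - δ) ≤ 2 * (P : ℝ) ^ (1 - δ) := by
      refine (Real.rpow_le_rpow (by linarith) hN2 (by linarith)).trans ?_
      rw [Real.mul_rpow zero_le_two (by linarith)]
      gcongr
      exact Real.rpow_le_self_of_one_le one_le_two (by linarith)
    have a2 : √N * Real.log N ≤ 4 * (N : ℝ) ^ (1 - δ) := by
      have b1 := Real.log_le_rpow_div (show (0 : ℝ) ≤ N by linarith)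
        (show (0 : ℝ) < 1 / 4 by norm_num)
      calc √N * Real.log N ≤ (N : ℝ) ^ (1 / 2 : ℝ) * ((N : ℝ) ^ (1 / 4 : ℝ) / (1 / 4)) := by
            rw [Real.sqrt_eq_rpow]; gcongr
        _ = 4 * (N : ℝ) ^ (1 / 2 + 1 / 4 : ℝ) := by rw [Real.rpow_add (by linarith)]; ring
        _ ≤ _ := by gcongr; linarith
    have a3 := h r b N t hr hb hN1
    rw [Nat.floor_natCast, sum_filter, ← hL] at a3
    have a4 := (norm_le_insert' _ _).trans (add_le_add (main_le hr (by linarith) ht) a3)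
    have a5 : (N : ℝ) / |t| ≤ 2 * (P / |t|) := by rw [← mul_div_assoc]; gcongr
    have a6 : C * (N : ℝ) ^ (1 - δ) * L ≤ C * (2 * (P : ℝ) ^ (1 - δ)) * L := by gcongr
    have a7 : (P : ℝ) ^ (1 - δ) * (1 / 2) ≤ (P : ℝ) ^ (1 - δ) * L := by gcongr
    refine (prime_pow r b N hN0 t).trans ?_
    linarith
  have e := eq_sub_of_add_eq' (sum_Ioc_consecutive
    (fun n => if n.Prime ∧ n ≡ b [MOD r] then nit n t else 0) (Nat.zero_le P)
    (show P ≤ 2 * P by omega))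
  rw [sum_filter, e]
  refine (norm_sub_le _ _).trans ((add_le_add (key _ le_rfl) (key _ (by omega))).trans ?_)
  have : 0 ≤ (8 * C + 120) * (P / |t|) := by positivity
  linarith

end Crest.Agent.R26
end

-- ▼ part PVc/R5/Triple
section

/-! Row 5: the seven-variable sum `TripleStmt`. -/

set_option autoImplicit false

namespace Crest.Agent.R5

open Finset

namespace Triple


theorem pd_inj {s t : Finset ℕ} (hs : ∀ q ∈ s, q.Prime) (ht : ∀ q ∈ t, q.Prime)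
    (h : pd s = pd t) : s = t := by
  have h1 := Nat.primeFactors_prod hs
  have h2 := Nat.primeFactors_prod ht
  unfold pd at h
  rw [← h1, ← h2, h]

theorem pd_pos {s : Finset ℕ} (hs : ∀ q ∈ s, q.Prime) : 0 < pd s :=
  prod_pos (fun q hq => (hs q hq).pos)
















/-- the weight of the seven variables -/
noncomputable def WW (y : Σ _ : Finset ℕ × Finset ℕ, Σ _ : Finset ℕ × Finset ℕ,
      Finset ℕ × (Finset ℕ × Finset ℕ)) : ℝ :=
  1 / (pd y.1.1 : ℝ) * (1 / (pd y.1.2 : ℝ)) *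
    (1 / (pd y.2.2.1 : ℝ) * (1 / (pd y.2.2.2.1 : ℝ) * (1 / (pd y.2.2.2.2 : ℝ))))





end Triple


end Crest.Agent.R5
end

-- ▼ part PVc/R8/Energy
section

/-! Row 8: the additive energy of the primes (Selberg's sieve). -/

set_option autoImplicit false

namespace Crest.Agent.R8

open Finset Crest.Agent.R5

namespace Energy

/-- elements `p` of `K` with `p + k` in `K` -/
def rr (K : Finset ℕ) (k : ℕ) : Finset ℕ := K.filter fun p => p + k ∈ K

lemma en_le (K : Finset ℕ) (x : ℕ) (hK : ∀ p ∈ K, p ≤ x) :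
    en K ≤ 2 * ∑ k ∈ range (x + 1), (rr K k).card ^ 2 := by
  have hc : ∀ f : ℕ → ℕ × ℕ → (ℕ × ℕ) × ℕ × ℕ,
      ((range (x + 1)).biUnion fun k => (rr K k ×ˢ rr K k).image (f k)).card ≤
        ∑ k ∈ range (x + 1), (rr K k).card ^ 2 := fun f =>
    card_biUnion_le.trans (sum_le_sum fun k _ => card_image_le.trans (by rw [card_product, sq]))
  rw [two_mul]
  refine le_trans ?_ (add_le_add (hc fun k y => ((y.1 + k, y.2), (y.1, y.2 + k)))
    (hc fun k y => ((y.1, y.2 + k), (y.1 + k, y.2))))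
  refine le_trans (card_le_card ?_) (card_union_le _ _)
  rintro ⟨⟨a, b⟩, c, d⟩ h
  simp only [mem_filter, mem_product] at h
  obtain ⟨⟨⟨ha, hb⟩, hc', hd⟩, he⟩ := h
  rcases le_total c a with h | h
  · obtain ⟨k, rfl⟩ := Nat.exists_eq_add_of_le h
    obtain rfl : d = b + k := by omega
    refine mem_union_left _ (mem_biUnion.2 ⟨k, mem_range.2 (by have := hK _ ha; omega), ?_⟩)
    exact mem_image.2 ⟨(c, b), mem_product.2 ⟨mem_filter.2 ⟨hc', ha⟩, mem_filter.2 ⟨hb, hd⟩⟩, rfl⟩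
  · obtain ⟨k, rfl⟩ := Nat.exists_eq_add_of_le h
    obtain rfl : b = d + k := by omega
    refine mem_union_right _ (mem_biUnion.2 ⟨k, mem_range.2 (by have := hK _ hc'; omega), ?_⟩)
    exact mem_image.2 ⟨(a, d), mem_product.2 ⟨mem_filter.2 ⟨ha, hc'⟩, mem_filter.2 ⟨hd, hb⟩⟩, rfl⟩

lemma mem_pr {A B : ℝ} {p : ℕ} (h : p ∈ pr A B) :
    p.Prime ∧ A < p ∧ p ∈ Icc 1 ⌊B⌋₊ := by
  unfold pr at h
  rw [mem_filter] at h
  exact ⟨h.2.1, h.2.2, h.1⟩

/-- indicator of `q ∣ y (y + k)` -/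
noncomputable def FF (k q : ℕ) (y : ℤ) : ℝ := if (q : ℤ) ∣ y ∨ (q : ℤ) ∣ y + k then 1 else 0

/-- its density -/
noncomputable def gg (k q : ℕ) : ℝ := if q ∣ k then 1 / q else 2 / q

lemma FF_eq (k q : ℕ) (y : ℤ) :
    FF k q y = dv q (y + 0) + dv q (y + k) - (if q ∣ k then 1 else 0) * dv q (y + 0) := by
  unfold FF dv
  rw [add_zero]
  by_cases h1 : (q : ℤ) ∣ y
  · have h2 : (q : ℤ) ∣ y + k ↔ q ∣ k := by rw [dvd_add_right h1, Int.natCast_dvd_natCast]
    by_cases h3 : q ∣ k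
    · simp [h1, h2, h3]
    · simp [h1, h2, h3]
  · by_cases h2 : (q : ℤ) ∣ y + k
    · simp [h1, h2]
    · simp [h1, h2]

lemma sum_dv {q : ℕ} (hq : 0 < q) (t : ℤ) : ∑ y ∈ range q, dv q (y + t) = 1 := by
  obtain ⟨y₀, -, -, h⟩ := CRT.exists_root hq t
  simpa only [one_mul] using h fun _ => 1

lemma av_FF (k : ℕ) {q : ℕ} (hq : 0 < q) : av q (FF k q) = gg k q := by
  unfold av gg
  simp only [FF_eq]
  rw [sum_sub_distrib, sum_add_distrib, ← mul_sum, sum_dv hq, sum_dv hq]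
  split_ifs <;> norm_num

lemma FF_per (k q : ℕ) : Function.Periodic (FF k q) (q : ℤ) := by
  intro y
  unfold FF
  rw [add_right_comm y q k]
  simp only [dvd_add_self_right]

open Classical in
lemma prod_FF (k : ℕ) (s : Finset ℕ) (y : ℤ) :
    ∏ q ∈ s, FF k q y = if ∀ q ∈ s, (q : ℤ) ∣ y ∨ (q : ℤ) ∣ y + k then 1 else 0 := by
  unfold FF
  convert prod_boole

lemma prod_FF_union (k : ℕ) (s t : Finset ℕ) (y : ℤ) :
    (∏ q ∈ s, FF k q y) * ∏ q ∈ t, FF k q y = ∏ q ∈ s ∪ t, FF k q y := by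
  rw [prod_FF, prod_FF, prod_FF]
  simp only [forall_mem_union]
  split_ifs <;> simp_all

lemma count (crt : CRTStmt) (k N : ℕ) (hN : 0 < N) (s : Finset ℕ) (hs : ∀ q ∈ s, q.Prime) :
    |∑ n ∈ range N, ∏ q ∈ s, FF k q n - N * ∏ q ∈ s, gg k q| ≤ pd s := by
  have hper : Function.Periodic (fun y => ∏ q ∈ s, FF k q y) (pd s : ℤ) := fun y =>
    prod_congr rfl fun q hq => CRT.per_dvd (FF_per k q) (dvd_prod_of_mem _ hq) y
  have h := TV.periodic_close (pd s) (pd s) (Triple.pd_pos hs) dvd_rfl _ hper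
    (fun y => by rw [prod_FF]; split_ifs <;> norm_num) 0 N hN
  rw [crt.2 s (FF k) hs fun q _ => FF_per k q,
    prod_congr rfl fun q hq => av_FF k (hs q hq).pos] at h
  unfold avI at h
  simp only [zero_add] at h
  have hN' : (0 : ℝ) < N := by exact_mod_cast hN
  generalize ∑ n ∈ range N, ∏ q ∈ s, FF k q n = A at h ⊢
  generalize ∏ q ∈ s, gg k q = B at h ⊢
  generalize (pd s : ℝ) = Q at h ⊢
  rw [le_div_iff₀ hN', ← abs_of_pos hN', ← abs_mul, abs_of_pos hN', sub_mul,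
    div_mul_cancel₀ _ hN'.ne', mul_comm] at h
  exact h

lemma sum_pd_le (S : Finset ℕ) (hS : ∀ q ∈ S, q.Prime) (R : ℝ) (hR : 0 ≤ R) (l : Finset ℕ → ℝ)
    (h1 : ∀ s, |l s| ≤ 1) (h2 : ∀ s, l s ≠ 0 → (pd s : ℝ) ≤ R) :
    ∑ s ∈ S.powerset, |l s| * pd s ≤ R ^ 2 := by
  classical
  have hc : (S.powerset.filter fun s => l s ≠ 0).card ≤ (Icc 1 ⌊R⌋₊).card := by
    refine card_le_card_of_injOn pd (fun s hs => ?_) fun s hs t ht h => ?_
    · obtain ⟨h3, h4⟩ := mem_filter.1 (mem_coe.1 hs)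
      exact mem_coe.2 (mem_Icc.2 ⟨Triple.pd_pos fun q hq => hS q (mem_powerset.1 h3 hq),
        Nat.le_floor (h2 s h4)⟩)
    · exact Triple.pd_inj (fun q hq => hS q (mem_powerset.1 (mem_filter.1 (mem_coe.1 hs)).1 hq))
        (fun q hq => hS q (mem_powerset.1 (mem_filter.1 (mem_coe.1 ht)).1 hq)) h
  rw [Nat.card_Icc, Nat.add_sub_cancel] at hc
  have hc' : ((S.powerset.filter fun s => l s ≠ 0).card : ℝ) ≤ R :=
    (Nat.cast_le.2 hc).trans (Nat.floor_le hR)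
  calc ∑ s ∈ S.powerset, |l s| * pd s
      = ∑ s ∈ S.powerset.filter fun s => l s ≠ 0, |l s| * pd s := by
        refine (sum_filter_of_ne (p := fun s => l s ≠ 0) fun s _ h h0 => h ?_).symm
        rw [h0, abs_zero, zero_mul]
    _ ≤ (S.powerset.filter fun s => l s ≠ 0).card • R := by
        refine sum_le_card_nsmul _ _ _ fun s hs => ?_
        exact (mul_le_of_le_one_left (Nat.cast_nonneg _) (h1 s)).trans (h2 s (mem_filter.1 hs).2)
    _ ≤ R ^ 2 := by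
        rw [nsmul_eq_mul, sq]
        exact mul_le_mul_of_nonneg_right hc' hR

lemma pd_union_le (s t : Finset ℕ) (hs : ∀ q ∈ s, q.Prime) : pd (s ∪ t) ≤ pd s * pd t := by
  unfold pd
  rw [← prod_union_inter]
  exact Nat.le_mul_of_pos_right _ (prod_pos fun q hq => (hs q (mem_inter.1 hq).1).pos)

lemma sieve (crt : CRTStmt) (k N : ℕ) (hN : 0 < N) (S : Finset ℕ) (hS : ∀ q ∈ S, q.Prime)
    (R : ℝ) (hR : 0 ≤ R) (l : Finset ℕ → ℝ) (h1 : ∀ s, |l s| ≤ 1)
    (h2 : ∀ s, l s ≠ 0 → (pd s : ℝ) ≤ R) :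
    ∑ n ∈ range N, (∑ s ∈ S.powerset, l s * ∏ q ∈ s, FF k q n) ^ 2 ≤
      N * (∑ s₁ ∈ S.powerset, ∑ s₂ ∈ S.powerset, l s₁ * l s₂ * ∏ q ∈ s₁ ∪ s₂, gg k q) + R ^ 4 := by
  have e1 : ∀ n : ℕ, (∑ s ∈ S.powerset, l s * ∏ q ∈ s, FF k q n) ^ 2 =
      ∑ s₁ ∈ S.powerset, ∑ s₂ ∈ S.powerset, l s₁ * l s₂ * ∏ q ∈ s₁ ∪ s₂, FF k q n := fun n => by
    rw [sq, sum_mul_sum]
    refine sum_congr rfl fun s _ => sum_congr rfl fun t _ => ?_
    rw [← prod_FF_union, mul_mul_mul_comm]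
  have hb := sum_pd_le S hS R hR l h1 h2
  have hb0 : 0 ≤ ∑ s ∈ S.powerset, |l s| * pd s := sum_nonneg fun s _ => by positivity
  have e2 : (∑ s ∈ S.powerset, |l s| * pd s) * (∑ s ∈ S.powerset, |l s| * pd s) ≤ R ^ 4 := by
    rw [show R ^ 4 = R ^ 2 * R ^ 2 by ring]
    exact mul_self_le_mul_self hb0 hb
  refine le_trans ?_ (add_le_add le_rfl e2)
  simp only [e1]
  rw [sum_comm, sum_mul_sum, mul_sum, ← sum_add_distrib]
  refine sum_le_sum fun s hs => ?_
  rw [sum_comm, mul_sum, ← sum_add_distrib]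
  refine sum_le_sum fun t ht => ?_
  have hs' : ∀ q ∈ s, q.Prime := fun q hq => hS q (mem_powerset.1 hs hq)
  have ht' : ∀ q ∈ t, q.Prime := fun q hq => hS q (mem_powerset.1 ht hq)
  have h3 := count crt k N hN (s ∪ t) fun q hq => (mem_union.1 hq).elim (hs' q) (ht' q)
  have h4 : (pd (s ∪ t) : ℝ) ≤ pd s * pd t := by exact_mod_cast pd_union_le s t hs'
  rw [← mul_sum]
  generalize ∑ n ∈ range N, ∏ q ∈ s ∪ t, FF k q n = A at h3 ⊢
  generalize ∏ q ∈ s ∪ t, gg k q = B at h3 ⊢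
  have h5 : l s * l t * (A - N * B) ≤ |l s| * |l t| * (pd s * pd t) := by
    refine (le_abs_self _).trans ?_
    rw [abs_mul, abs_mul]
    exact mul_le_mul_of_nonneg_left (h3.trans h4) (by positivity)
  generalize (pd s : ℝ) = a at h5 ⊢
  generalize (pd t : ℝ) = b at h5 ⊢
  linarith




lemma gg_bounds (k : ℕ) {q : ℕ} (hq : (2 : ℝ) < q) : 0 ≤ gg k q ∧ gg k q ≤ 2 / q ∧ gg k q < 1 := by
  have h0 : (0 : ℝ) < q := by linarith
  have h1 : gg k q ≤ 2 / q := by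
    unfold gg
    split_ifs
    · exact div_le_div_of_nonneg_right (by norm_num) h0.le
    · exact le_rfl
  refine ⟨?_, h1, h1.trans_lt ((div_lt_one h0).2 hq)⟩
  unfold gg
  split_ifs <;> positivity



lemma card_rr (x k : ℕ) : ((rr (pr 0 x) k).card : ℝ) ≤ x := by
  have : (rr (pr 0 x) k).card ≤ (Icc 1 ⌊(x : ℝ)⌋₊).card :=
    card_le_card fun p hp => (mem_pr (mem_filter.1 hp).1).2.2
  rw [Nat.card_Icc, Nat.add_sub_cancel, Nat.floor_natCast] at this
  exact_mod_cast this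

lemma en_le' (x : ℕ) : (en (pr 0 x) : ℝ) ≤
    2 * (((rr (pr 0 x) 0).card : ℝ) ^ 2 + ∑ k ∈ Ioc 0 x, ((rr (pr 0 x) k).card : ℝ) ^ 2) := by
  have h := en_le (pr 0 x) x fun p hp => by
    have := (mem_Icc.1 (mem_pr hp).2.2).2
    rwa [Nat.floor_natCast] at this
  rw [range_eq_Ico, Ico_add_one_right_eq_Icc, ← add_sum_Ioc_eq_sum_Icc (Nat.zero_le x)] at h
  exact_mod_cast h

lemma small (x : ℕ) (hx : 1 ≤ x) : (en (pr 0 x) : ℝ) ≤ 4 * (x : ℝ) ^ 3 := by
  have h1 : ∀ k, ((rr (pr 0 x) k).card : ℝ) ^ 2 ≤ (x : ℝ) ^ 2 := fun k =>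
    pow_le_pow_left₀ (Nat.cast_nonneg _) (card_rr x k) 2
  have h2 := sum_le_card_nsmul (Ioc 0 x) _ _ fun k _ => h1 k
  rw [Nat.card_Ioc, Nat.sub_zero, nsmul_eq_mul] at h2
  have h3 := (en_le' x).trans (mul_le_mul_of_nonneg_left (add_le_add (h1 0) h2) (by norm_num))
  have hx' : (1 : ℝ) ≤ x := by exact_mod_cast hx
  refine h3.trans ?_
  nlinarith [mul_le_mul_of_nonneg_left hx' (sq_nonneg (x : ℝ))]




end Energy


end Crest.Agent.R8
end

-- ▼ part PVc/R26/Miss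
section

/-! Row 26: a two-dimensional sieve bound. -/

set_option autoImplicit false

namespace Crest.Agent.R26

open Finset Filter
open Crest.Agent.R5 (pr pd ee nit)

namespace Miss

open Crest.Agent.R8.Energy

/-- a shift `k` with `r k ≡ -1` modulo the primes of `S` and `k ≡ 0` modulo the other primes -/
lemma exists_shift (S T : Finset ℕ) (r : ℕ) (hS : ∀ p ∈ S, p.Prime ∧ ¬ p ∣ r)
    (hT : ∀ p ∈ T, p.Prime) : ∃ k : ℕ, (∀ p ∈ S, p ∣ r * k + 1) ∧ ∀ p ∈ T, p ∉ S → p ∣ k := by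
  have hB : 0 < pd S := R5.Triple.pd_pos fun p hp => (hS p hp).1
  have hc : Nat.Coprime (r * pd (T \ S)) (pd S) := by
    refine Nat.Coprime.prod_right fun p hp => Nat.Coprime.mul_left ?_ ?_
    · exact ((Nat.Prime.coprime_iff_not_dvd (hS p hp).1).2 (hS p hp).2).symm
    · refine Nat.Coprime.prod_left fun q hq => ?_
      have hq := Finset.mem_sdiff.1 hq
      exact (Nat.coprime_primes (hT q hq.1) (hS p hp).1).2 fun e => hq.2 (e ▸ hp)
  obtain ⟨u, -, hu⟩ := Nat.exists_mul_mod_eq_of_coprime (pd S - 1) hc hB.ne'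
  refine ⟨pd (T \ S) * u, fun p hp => ?_, fun p hp hp' => ?_⟩
  · have h1 : r * pd (T \ S) * u + 1 ≡ pd S - 1 + 1 [MOD pd S] := Nat.ModEq.add_right 1 hu
    rw [Nat.sub_add_cancel hB] at h1
    rw [← mul_assoc]
    exact (dvd_prod_of_mem _ hp).trans ((Nat.modEq_zero_iff_dvd).1 (h1.trans (Nat.modEq_zero_iff_dvd.2
      dvd_rfl)))
  · exact Dvd.dvd.mul_right (dvd_prod_of_mem _ (Finset.mem_sdiff.2 ⟨hp, hp'⟩)) u

lemma card_le (A T : Finset ℕ) (k N : ℕ) (l : Finset ℕ → ℝ) (h0 : l ∅ = 1)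
    (hA : ∀ m ∈ A, m < N ∧ ∀ q ∈ T, ¬ q ∣ m ∧ ¬ q ∣ m + k) :
    (A.card : ℝ) ≤ ∑ n ∈ range N, (∑ s ∈ T.powerset, l s * ∏ q ∈ s, FF k q n) ^ 2 := by
  refine le_trans ?_ (sum_le_sum_of_subset_of_nonneg (s := A) (fun m hm => mem_range.2 (hA m hm).1)
    fun _ _ _ => sq_nonneg _)
  rw [card_eq_sum_ones, Nat.cast_sum]
  refine sum_le_sum fun m hm => ?_
  rw [sum_eq_single ∅]
  · simp [h0]
  · intro s hs hne
    obtain ⟨q, hq⟩ := nonempty_iff_ne_empty.2 hne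
    obtain ⟨h1, h2⟩ := (hA m hm).2 q (mem_powerset.1 hs hq)
    rw [prod_eq_zero hq, mul_zero]
    unfold FF
    rw [if_neg]
    rintro (h | h)
    · exact h1 (by exact_mod_cast h)
    · exact h2 (by exact_mod_cast h)
  · intro h
    exact absurd (empty_mem_powerset T) h

lemma prod_le (S : Finset ℕ) (z : ℝ) (k : ℕ) (hS : S ⊆ pr 2 z) (hk : ∀ p ∈ S, ¬ p ∣ k) :
    ∏ q ∈ pr 2 z, (1 - gg k q) ≤
      Real.exp (-∑ q ∈ pr 2 z, 1 / (q : ℝ)) * Real.exp (-∑ q ∈ S, 1 / (q : ℝ)) := by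
  have h1 : ∑ q ∈ S, 1 / (q : ℝ) = ∑ q ∈ pr 2 z, if q ∈ S then 1 / (q : ℝ) else 0 := by
    rw [sum_ite_mem, inter_eq_right.2 hS]
  rw [← Real.exp_add, h1, ← neg_add, ← sum_add_distrib, ← sum_neg_distrib, Real.exp_sum]
  refine prod_le_prod (fun q hq => by linarith [(gg_bounds k (mem_pr hq).2.1).2.2]) fun q hq => ?_
  refine le_trans ?_ (Real.add_one_le_exp _)
  have h0 : 0 ≤ 1 / (q : ℝ) := by positivity
  have h2 : 2 / (q : ℝ) = 1 / q + 1 / q := by ring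
  unfold gg
  by_cases h : q ∈ S
  · rw [if_pos h, if_neg (hk q h)]
    linarith
  · rw [if_neg h]
    split_ifs <;> linarith

lemma sum_log_le {C z : ℝ} (hM : ∑ p ∈ pr 0 z, Real.log p / p ≤ Real.log z + C)
    (hz : 4 * C ≤ Real.log z) (k : ℕ) :
    ∑ q ∈ pr 2 z, gg k q * Real.log q ≤ Real.log (z ^ 5) / 2 := by
  have h2 : ∑ q ∈ pr 2 z, gg k q * Real.log q ≤ ∑ p ∈ pr 0 z, 2 * (Real.log p / p) := by
    refine le_trans (sum_le_sum fun q hq => ?_) (sum_le_sum_of_subset_of_nonneg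
      (fun q hq => ?_) fun q _ _ => by positivity)
    · rw [mul_div_assoc', mul_div_right_comm]
      exact mul_le_mul_of_nonneg_right (gg_bounds k (mem_pr hq).2.1).2.1
        (Real.log_natCast_nonneg q)
    · obtain ⟨h3, h4, h5⟩ := mem_pr hq
      unfold pr
      rw [mem_filter]
      exact ⟨h5, h3, lt_trans two_pos h4⟩
  rw [← mul_sum] at h2
  rw [Real.log_pow]
  push_cast
  linarith

end Miss

open Crest.Agent.R8.Energy in
theorem miss : MissStmt := by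
  classical
  obtain ⟨C, hC, hM1, hM2⟩ := R5.mertens
  refine ⟨12 * Real.exp (Real.log (Real.log 2) + C / Real.log 2), by positivity,
    fun η hη hη' => ?_⟩
  have ev := (Real.tendsto_log_atTop.comp tendsto_natCast_atTop_atTop).eventually_ge_atTop
    (8 * C / η)
  filter_upwards [ev, eventually_ge_atTop 1] with x hx hx1 S r hr hrx hS
  simp only [Function.comp] at hx
  have hx0 : (1 : ℝ) ≤ x := by exact_mod_cast hx1
  have hxp : (0 : ℝ) < x := by linarith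
  have hr0 : (0 : ℝ) < r := by exact_mod_cast hr
  have hrx' : (r : ℝ) ≤ x := by exact_mod_cast hrx
  rw [div_le_iff₀ hη] at hx
  have hL : 0 < Real.log x * η := by linarith
  have hL' : 0 < Real.log x := (mul_pos_iff_of_pos_right hη).1 hL
  set z : ℝ := (zz η x : ℝ) with hz
  have h1η : 1 ≤ (x : ℝ) ^ η := Real.one_le_rpow hx0 hη.le
  have hz1 : (x : ℝ) ^ η / 2 < z := Nat.div_two_lt_floor h1η
  have hz2 : z ≤ (x : ℝ) ^ η := Nat.floor_le (by positivity)
  have hz0 : 0 < z := lt_trans (by positivity) hz1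
  have hl2 : Real.log 2 ≤ 1 := by linarith [Real.log_two_lt_d9]
  have hlz : Real.log x * η / 2 ≤ Real.log z := by
    have := Real.log_le_log (by positivity) hz1.le
    rw [Real.log_div (by positivity) two_ne_zero, Real.log_rpow hxp] at this
    linarith
  have hz3 : 2 ≤ z := by
    have := Real.log_le_sub_one_of_pos hz0
    linarith
  have hsub : S ⊆ pr 2 z := fun p hp => by
    obtain ⟨a, b, c, -⟩ := hS p hp
    unfold pr
    rw [mem_filter, hz, Nat.floor_natCast, mem_Icc]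
    exact ⟨⟨a.one_le, c⟩, a, by exact_mod_cast b⟩
  obtain ⟨k, hk1, hk2⟩ := Miss.exists_shift S (pr 2 z) r (fun p hp => ⟨(hS p hp).1, (hS p hp).2.2.2⟩)
    fun p hp => (mem_pr hp).1
  have hk3 : ∀ p ∈ S, ¬ p ∣ k := fun p hp h =>
    (hS p hp).1.not_dvd_one ((Nat.dvd_add_right (h.mul_left r)).1 (hk1 p hp))
  obtain ⟨l, h0, h1, h2, -, h3⟩ := R8.selberg (pr 2 z) (gg k) (z ^ 5)
    (fun q hq => ⟨(mem_pr hq).1.one_le, (gg_bounds k (mem_pr hq).2.1).1,
      (gg_bounds k (mem_pr hq).2.1).2.2⟩) (one_lt_pow₀ (by linarith) (by norm_num))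
    (Miss.sum_log_le (hM2 z (by linarith)) (by linarith) k)
  have h4 := sieve R5.crt k (2 * x / r + 1) (Nat.succ_pos _) (pr 2 z) (fun q hq => (mem_pr hq).1)
    (z ^ 5) (by positivity) l h1 h2
  refine (Miss.card_le _ (pr 2 z) k (2 * x / r + 1) l h0 fun m hm => ?_).trans (h4.trans ?_)
  · obtain ⟨-, a, b, c⟩ := mem_filter.1 hm
    rw [mem_Ioc] at a
    refine ⟨Nat.lt_succ_of_le ((Nat.le_div_iff_mul_le hr).2 (by rw [mul_comm]; exact a.2)),
      fun q hq => ?_⟩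
    obtain ⟨q1, -, q2⟩ := mem_pr hq
    rw [hz, Nat.floor_natCast, mem_Icc] at q2
    have hqm : ¬ q ∣ m := fun h => absurd (b q q1 h) (not_lt.2 q2.2)
    refine ⟨hqm, fun h => ?_⟩
    by_cases hq' : q ∈ S
    · have e : r * (m + k) = r * k + 1 + (r * m - 1) := by
        rw [mul_add]
        omega
      exact c q hq' ((Nat.dvd_add_right (hk1 q hq')).1 (e ▸ h.mul_left r))
    · exact hqm ((Nat.dvd_add_left (hk2 q hq hq')).1 h)
  · refine add_le_add ?_ ?_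
    · have hN : ((2 * x / r + 1 : ℕ) : ℝ) ≤ 3 * x / r := by
        have a1 : ((2 * x / r : ℕ) : ℝ) ≤ (2 * x : ℕ) / r := Nat.cast_div_le
        have a2 : 1 ≤ (x : ℝ) / r := (one_le_div hr0).2 hrx'
        push_cast at a1 ⊢
        have a3 : 3 * (x : ℝ) / r = 2 * x / r + x / r := by ring
        linarith
      have hP := Miss.prod_le S z k hsub hk3
      have hlz0 : 0 < Real.log z := by linarith
      have hE : Real.exp (-∑ q ∈ pr 2 z, 1 / (q : ℝ)) ≤
          Real.exp (Real.log (Real.log 2) + C / Real.log 2) / (Real.log x * η / 2) := by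
        have a1 := (abs_le.1 (hM1 2 z le_rfl hz3)).1
        refine le_trans ?_ (div_le_div_of_nonneg_left (Real.exp_pos _).le (by linarith) hlz)
        rw [le_div_iff₀ hlz0, ← Real.exp_log hlz0, ← Real.exp_add]
        exact Real.exp_le_exp.2 (by linarith)
      calc _ ≤ ((2 * x / r + 1 : ℕ) : ℝ) * (2 * (Real.exp (-∑ q ∈ pr 2 z, 1 / (q : ℝ)) *
            Real.exp (-∑ q ∈ S, 1 / (q : ℝ)))) :=
            mul_le_mul_of_nonneg_left (h3.trans (by linarith)) (Nat.cast_nonneg _)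
        _ ≤ (3 * x / r) * (2 * (Real.exp (Real.log (Real.log 2) + C / Real.log 2) /
            (Real.log x * η / 2) * Real.exp (-∑ q ∈ S, 1 / (q : ℝ)))) := by gcongr
        _ = _ := by field_simp; ring
    · calc (z ^ 5) ^ 4 = z ^ 20 := by ring
        _ ≤ ((x : ℝ) ^ η) ^ 20 := by gcongr
        _ = (x : ℝ) ^ (η * 20) := by rw [Real.rpow_mul hxp.le]; norm_num
        _ ≤ _ := Real.rpow_le_rpow_of_exponent_le hx0 (by linarith)

end Crest.Agent.R26
end

-- ▼ part PVc/R26/Ram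
section

/-! Row 26: Ramaré weights. -/

set_option autoImplicit false

namespace Crest.Agent.R26

open Finset Filter
open Crest.Agent.R5 (pr pd ee nit)

theorem ramOK : RamStmt := by
  classical
  intro J S f hp hd hf hx
  have nd : ∀ {i j p q}, i ≠ j → p ∈ S i → q ∈ S j → ¬ p ∣ q := fun {i j p q} hij h h' hpq =>
    disjoint_left.1 (hd i j hij) h (((Nat.prime_dvd_prime_iff_eq (hp _ _ h) (hp _ _ h')).1 hpq) ▸ h')
  have swap : ∀ u u' : Fin J → ℕ, (∀ j, u j ∈ S j) → (∀ j, u' j ∈ S j) → ∀ (T : Finset (Fin J)) t,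
      (∀ j ∈ T, ¬ u j ∣ t) → (∀ j ∈ T, ¬ u' j ∣ t) →
      f ((∏ j ∈ T, u j) * t) = f ((∏ j ∈ T, u' j) * t) := by
    intro u u' hu hu' T
    induction T using Finset.induction_on with
    | empty => intros; rfl
    | insert i T hi ih =>
      intro t h h'
      have a1 : ∀ j ∈ T, ∀ p ∈ S j, ¬ p ∣ t → ¬ p ∣ u i * t := fun j hj p h1 h2 h3 =>
        (((hp j p h1).dvd_mul).1 h3).elim (nd (ne_of_mem_of_not_mem hj hi) h1 (hu i)) h2
      have a2 : ∀ p ∈ S i, ¬ p ∣ t → ¬ p ∣ (∏ j ∈ T, u' j) * t := fun p h1 h2 h3 =>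
        (((hp i p h1).dvd_mul).1 h3).elim (fun h4 => by
          obtain ⟨j, hj, h5⟩ := ((hp i p h1).prime.dvd_finsetProd_iff _).1 h4
          exact nd (ne_of_mem_of_not_mem hj hi).symm h1 (hu' j) h5) h2
      rw [prod_insert hi, prod_insert hi, mul_comm (u i), mul_assoc,
        ih _ (fun j hj => a1 j hj _ (hu j) (h j (mem_insert_of_mem hj)))
          fun j hj => a1 j hj _ (hu' j) (h' j (mem_insert_of_mem hj)), mul_left_comm, mul_assoc]
      exact hx i _ (hu i) _ (hu' i) _ (a2 _ (hu i) (h i (mem_insert_self _ _)))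
        (a2 _ (hu' i) (h' i (mem_insert_self _ _)))
  obtain ⟨F0, h0, h1⟩ : ∃ F0 : ℕ → ℝ, (∀ t, |F0 t| ≤ 1) ∧ ∀ t (u : Fin J → ℕ), (∀ j, u j ∈ S j) →
      (∀ j, ¬ u j ∣ t) → F0 t = f ((∏ j, u j) * t) := by
    refine ⟨fun t => if h : ∃ u : Fin J → ℕ, (∀ j, u j ∈ S j) ∧ ∀ j, ¬ u j ∣ t then
      f ((∏ j, h.choose j) * t) else 0, fun t => ?_, fun t u hu hu' => ?_⟩
    · dsimp only
      split_ifs
      exacts [hf _, by simp]
    · have h : ∃ u : Fin J → ℕ, (∀ j, u j ∈ S j) ∧ ∀ j, ¬ u j ∣ t := ⟨u, hu, hu'⟩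
      simp only [dif_pos h]
      exact swap _ _ h.choose_spec.1 hu _ _ (fun j _ => h.choose_spec.2 j) fun j _ => hu' j
  obtain ⟨om, hom⟩ : ∃ om : Fin J → ℕ → ℕ, ∀ j t, om j t = #{p ∈ S j | p ∣ t} := ⟨_, fun _ _ => rfl⟩
  have e1 : ∀ (u : Fin J → ℕ) t j, (∀ j, u j ∈ S j) →
      {p ∈ S j | p ∣ (∏ j, u j) * t} = insert (u j) {p ∈ S j | p ∣ t} := by
    intro u t j hu
    ext p
    rw [mem_insert, mem_filter, mem_filter]
    constructor
    · rintro ⟨h2, h3⟩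
      refine (((hp j p h2).dvd_mul).1 h3).imp (fun h4 => ?_) fun h4 => ⟨h2, h4⟩
      obtain ⟨i, -, h5⟩ := ((hp j p h2).prime.dvd_finsetProd_iff _).1 h4
      obtain rfl : j = i := by_contra fun e => nd e h2 (hu i) h5
      exact (Nat.prime_dvd_prime_iff_eq (hp _ _ h2) (hp _ _ (hu j))).1 h5
    · rintro (rfl | ⟨h2, h3⟩)
      exacts [⟨hu j, (dvd_prod_of_mem _ (mem_univ j)).mul_right _⟩, ⟨h2, h3.mul_left _⟩]
  have e2 : ∀ n, ∑ u ∈ Fintype.piFinset S, ∏ j, (if u j ∣ n then ((om j n : ℝ))⁻¹ else 0) =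
      ∏ j, (om j n : ℝ) * (om j n : ℝ)⁻¹ := fun n => by
    rw [← prod_univ_sum S fun j p => if p ∣ n then ((om j n : ℝ))⁻¹ else 0]
    exact prod_congr rfl fun j _ => by rw [← sum_filter, sum_const, nsmul_eq_mul, hom]
  have e3 : ∀ t, |F0 t * ∏ j, ((om j t : ℝ) + 1)⁻¹| ≤ ∏ j, ((om j t : ℝ) + 1)⁻¹ := fun t => by
    have h : 0 ≤ ∏ j, ((om j t : ℝ) + 1)⁻¹ := prod_nonneg fun j _ => by positivity
    rw [abs_mul, abs_of_nonneg h]
    exact mul_le_of_le_one_left h (h0 t)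
  refine ⟨fun t => F0 t * ∏ j, ((om j t : ℝ) + 1)⁻¹, fun t => (e3 t).trans (prod_le_one
    (fun j _ => by positivity) fun j _ => inv_le_one_of_one_le₀ (by simp)), fun n => ?_,
    fun n hn hn' => ?_⟩
  · refine (abs_sum_le_sum_abs _ _).trans ((sum_le_sum fun u hu => ?_).trans ((e2 n).trans_le
      (prod_le_one (fun j _ => by positivity) fun j _ => mul_inv_le_one)))
    rw [Fintype.mem_piFinset] at hu
    split_ifs with h
    swap
    · rw [abs_zero]
      exact prod_nonneg fun j _ => by split_ifs <;> positivity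
    obtain ⟨t, rfl⟩ := h
    rw [Nat.mul_div_cancel_left _ (prod_pos fun j _ => (hp _ _ (hu j)).pos)]
    refine (e3 t).trans (prod_le_prod (fun j _ => by positivity) fun j _ => ?_)
    rw [if_pos ((dvd_prod_of_mem _ (mem_univ j)).mul_right _)]
    simp only [hom, e1 u t j hu]
    exact inv_anti₀ (Nat.cast_pos.2 (card_pos.2 (insert_nonempty _ _)))
      (by exact_mod_cast card_insert_le _ _)
  · have e4 : ∏ j, (om j n : ℝ) * (om j n : ℝ)⁻¹ = 1 := prod_eq_one fun j _ => by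
      obtain ⟨p, h2, h3⟩ := hn j
      rw [hom]
      exact mul_inv_cancel₀ (Nat.cast_ne_zero.2 (card_pos.2 ⟨p, mem_filter.2 ⟨h2, h3⟩⟩).ne')
    refine Eq.trans ?_ ((congrArg (f n * ·) ((e2 n).trans e4)).trans (mul_one _))
    rw [mul_sum]
    refine sum_congr rfl fun u hu => ?_
    rw [Fintype.mem_piFinset] at hu
    split_ifs with h
    · obtain ⟨t, rfl⟩ := h
      have h2 : ∀ j, ¬ u j ∣ t := fun j h3 => hn' j _ (hu j)
        (sq (u j) ▸ mul_dvd_mul (dvd_prod_of_mem _ (mem_univ j)) h3)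
      rw [Nat.mul_div_cancel_left _ (prod_pos fun j _ => (hp _ _ (hu j)).pos)]
      refine congrArg₂ _ (h1 t u hu h2) (prod_congr rfl fun j _ => ?_)
      rw [if_pos ((dvd_prod_of_mem _ (mem_univ j)).mul_right _)]
      simp only [hom, e1 u t j hu]
      rw [card_insert_of_notMem (by simp [h2 j]), Nat.cast_succ]
    · obtain ⟨j, hj⟩ : ∃ j, ¬ u j ∣ n := not_forall.1 fun h2 => h (Fintype.prod_dvd_of_isRelPrime
        (fun i j hij => Nat.coprime_iff_isRelPrime.1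
          ((Nat.Prime.coprime_iff_not_dvd (hp _ _ (hu i))).2 (nd hij (hu i) (hu j)))) h2)
      rw [prod_eq_zero (mem_univ j) (if_neg hj), mul_zero]

end Crest.Agent.R26
end

-- ▼ part PVc/R26/MainR
section

/-! Row 26: main theorem, rough form. -/

set_option autoImplicit false

namespace Crest.Agent.R26

open Finset Filter
open Crest.Agent.R5 (pr pd ee nit)

namespace MainR

theorem cnt_Ioc (x v : ℕ) {k : ℕ} (hk : 0 < k) :
    (((Ioc x (2 * x)).filter (fun N => N ≡ v [MOD k])).card : ℝ) ≤ x / k + 1 := by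
  have h := Nat.Ioc_filter_modEq_card x (2 * x) hk v
  have hk' : (0 : ℚ) < k := by exact_mod_cast hk
  have h1 := Int.floor_le (((2 * x : ℕ) - v : ℚ) / k)
  have h2 := Int.lt_floor_add_one (((x : ℕ) - v : ℚ) / k)
  have h3 : (((2 * x : ℕ) - v : ℚ) / k) - (((x : ℕ) - v : ℚ) / k) = x / k := by
    push_cast
    ring
  have h4 : (0 : ℚ) ≤ x / k := by positivity
  have h5 : ((((Ioc x (2 * x)).filter (fun N => N ≡ v [MOD k])).card : ℤ) : ℚ) ≤ x / k + 1 := by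
    rw [h]
    push_cast at h1 h2 h3 ⊢
    exact max_le (by linarith) (by linarith)
  have h6 : ((((Ioc x (2 * x)).filter (fun N => N ≡ v [MOD k])).card : ℚ) : ℝ) ≤
      ((x / k + 1 : ℚ) : ℝ) := by exact_mod_cast h5
  simpa using h6

theorem cnt_class (x : ℕ) {r q : ℕ} (hr : 0 < r) (hq : 0 < q) (hc : q.Coprime r) (T : Finset ℕ)
    (hT : ∀ m ∈ T, r * m ∈ Ioc x (2 * x) ∧ q ∣ r * m - 1) :
    (T.card : ℝ) ≤ x / (r * q) + 1 := by
  rcases T.eq_empty_or_nonempty with rfl | ⟨m₀, hm₀⟩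
  · simp only [card_empty, Nat.cast_zero]
    positivity
  have key : ∀ m ∈ T, r * m ≡ 1 [MOD q] := fun m hm => by
    obtain ⟨h1, h2⟩ := hT m hm
    exact ((Nat.modEq_iff_dvd' (by have := (mem_Ioc.1 h1).1; omega)).2 h2).symm
  have h := cnt_Ioc x (r * m₀) (Nat.mul_pos hr hq)
  rw [Nat.cast_mul] at h
  refine le_trans (Nat.cast_le.2 ?_) h
  refine card_le_card_of_injOn (fun m => r * m) (fun m hm => ?_)
    fun a _ b _ hab => Nat.eq_of_mul_eq_mul_left hr hab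
  refine mem_coe.2 (mem_filter.2 ⟨(hT m hm).1, Nat.ModEq.mul_left' r ?_⟩)
  exact Nat.ModEq.cancel_left_of_coprime hc ((key m hm).trans (key m₀ hm₀).symm)

theorem sum_inv_sq {Λ : ℝ} (hΛ : 0 < Λ) (P : Finset ℕ) (hP : ∀ p ∈ P, Λ ≤ p) :
    ∑ p ∈ P, ((p : ℝ) ^ 2)⁻¹ ≤ 2 / Λ := by
  have h1 : 1 ≤ ⌈Λ⌉₊ := Nat.ceil_pos.2 hΛ
  have h := sum_Ioo_inv_sq_le (α := ℝ) (⌈Λ⌉₊ - 1) (P.sup id + 1)
  refine (sum_le_sum_of_subset_of_nonneg (fun p hp => ?_) fun _ _ _ => by positivity).trans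
    (h.trans ?_)
  · have h2 := Nat.ceil_le.2 (hP p hp)
    have h3 : p ≤ P.sup id := le_sup (f := id) hp
    exact mem_Ioo.2 ⟨by omega, by omega⟩
  · rw [Nat.cast_sub h1, Nat.cast_one, sub_add_cancel]
    exact div_le_div_of_nonneg_left (by norm_num) hΛ (Nat.le_ceil Λ)

/-- the exceptional arguments -/
def Exc (S : Fin 400 → Finset ℕ) (n : ℕ) : Prop :=
  ∃ j, (∀ p ∈ S j, ¬ p ∣ n) ∨ ∃ p ∈ S j, p ^ 2 ∣ n

open Classical in
/-- number of the exceptional rough multiples of `r` -/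
noncomputable def nE (η : ℝ) (x : ℕ) (S : Fin 400 → Finset ℕ) (r : ℕ) : ℕ :=
  (((Icc 1 (2 * x)).filter (fun m => r * m ∈ Ioc x (2 * x) ∧ rough (zz η x) m)).filter
    fun m => Exc S (r * m - 1)).card

open Classical in
theorem nE_le {η : ℝ} {x r : ℕ} {S : Fin 400 → Finset ℕ} {Λ B : ℝ} (hΛ : 0 < Λ) (hr : 0 < r)
    (hS : ∀ j, ∀ p ∈ S j, p.Prime ∧ Λ ≤ p ∧ p ≤ zz η x ∧ ¬ p ∣ r)
    (hB : ∀ j, (((Icc 1 (2 * x)).filter (fun m => r * m ∈ Ioc x (2 * x) ∧ rough (zz η x) m ∧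
      ∀ p ∈ S j, ¬ p ∣ r * m - 1)).card : ℝ) ≤ B) :
    (nE η x S r : ℝ) ≤ 400 * (B + (x / r * (2 / Λ) + zz η x)) := by
  have hsub : ((Icc 1 (2 * x)).filter (fun m => r * m ∈ Ioc x (2 * x) ∧ rough (zz η x) m)).filter
      (fun m => Exc S (r * m - 1)) ⊆ univ.biUnion fun j =>
        (Icc 1 (2 * x)).filter (fun m => r * m ∈ Ioc x (2 * x) ∧ rough (zz η x) m ∧
          ∀ p ∈ S j, ¬ p ∣ r * m - 1) ∪ (S j).biUnion fun p =>
          (Icc 1 (2 * x)).filter fun m => r * m ∈ Ioc x (2 * x) ∧ p ^ 2 ∣ r * m - 1 := by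
    intro m hm
    obtain ⟨h1, j, h2⟩ := mem_filter.1 hm
    obtain ⟨h3, h4, h5⟩ := mem_filter.1 h1
    refine mem_biUnion.2 ⟨j, mem_univ _, mem_union.2 ?_⟩
    rcases h2 with h2 | ⟨p, hp, h2⟩
    · exact Or.inl (mem_filter.2 ⟨h3, h4, h5, h2⟩)
    · exact Or.inr (mem_biUnion.2 ⟨p, hp, mem_filter.2 ⟨h3, h4, h2⟩⟩)
  have h1 := (card_le_card hsub).trans card_biUnion_le
  refine (Nat.cast_le.2 h1).trans ?_
  rw [Nat.cast_sum]
  refine (sum_le_card_nsmul _ _ (B + (x / r * (2 / Λ) + zz η x)) fun j _ => ?_).trans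
    (by rw [card_univ, Fintype.card_fin, nsmul_eq_mul, Nat.cast_ofNat])
  refine (Nat.cast_le.2 (card_union_le _ _)).trans ?_
  rw [Nat.cast_add]
  refine add_le_add (hB j) ((Nat.cast_le.2 card_biUnion_le).trans ?_)
  rw [Nat.cast_sum]
  have hr' : (0 : ℝ) < r := by exact_mod_cast hr
  calc _ ≤ ∑ p ∈ S j, ((x : ℝ) / r * ((p : ℝ) ^ 2)⁻¹ + 1) := by
        refine sum_le_sum fun p hp => ?_
        obtain ⟨a1, -, -, a4⟩ := hS j p hp
        refine (cnt_class x hr (pow_pos a1.pos 2)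
          (Nat.Coprime.pow_left 2 ((Nat.Prime.coprime_iff_not_dvd a1).2 a4)) _
          fun m hm => (mem_filter.1 hm).2).trans (le_of_eq ?_)
        push_cast
        ring
    _ = x / r * ∑ p ∈ S j, ((p : ℝ) ^ 2)⁻¹ + (S j).card := by
        rw [sum_add_distrib, mul_sum]; simp
    _ ≤ _ := by
        have hc : (S j).card ≤ zz η x := by
          have := card_le_card (s := S j) (t := Icc 1 (zz η x)) fun p hp =>
            mem_Icc.2 ⟨(hS j p hp).1.one_le, (hS j p hp).2.2.1⟩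
          rwa [Nat.card_Icc, Nat.add_sub_cancel] at this
        exact add_le_add (mul_le_mul_of_nonneg_left (sum_inv_sq hΛ _ fun p hp => (hS j p hp).2.1)
          (div_nonneg (Nat.cast_nonneg _) hr'.le)) (Nat.cast_le.2 hc)

theorem ev_log (A : ℝ) : ∀ᶠ x : ℕ in atTop, A ≤ Real.log x :=
  (Real.tendsto_log_atTop.comp tendsto_natCast_atTop_atTop).eventually_ge_atTop A

theorem ev_pow {K : ℝ} (hK : 0 < K) :
    ∀ᶠ x : ℕ in atTop, K * Real.log x ≤ (x : ℝ) ^ (1 / 2 : ℝ) := by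
  have h := (isLittleO_log_rpow_atTop (by norm_num : (0 : ℝ) < 1 / 2)).bound (inv_pos.2 hK)
  filter_upwards [tendsto_natCast_atTop_atTop.eventually h] with x hx
  rw [Real.norm_of_nonneg (Real.log_natCast_nonneg x),
    Real.norm_of_nonneg (by positivity)] at hx
  rwa [← le_inv_mul_iff₀ hK]

theorem exc_count (hG : GrpStmt) (hM : MissStmt) {m : ℕ} {η e : ℝ} (hm : 1 ≤ m) (h0 : 0 < η)
    (h1 : η ≤ 1 / 100) (he : 0 < e) : ∀ᶠ x : ℕ in atTop, zz η x ≤ x ∧ ∀ r : ℕ,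
      (r = 1 ∨ (r.Prime ∧ zz η x < r ∧ r ≤ 2 * zz η x)) →
      (nE η x (grp m x) r : ℝ) ≤ e * x / (r * Real.log x) := by
  obtain ⟨C, hC, H⟩ := hM
  filter_upwards [H η h0 h1, hG m (1200 * C / (η * e)) hm, ev_log 4, ev_log (1 / η ^ 2),
    ev_log (2400 / e), ev_pow (K := 4800 / e) (by positivity), eventually_ge_atTop 16] with
    x hx ⟨g1, _, g3⟩ l1 l2 l3 l4 hx16
  have hx1 : (1 : ℝ) ≤ x := by exact_mod_cast (by omega : 1 ≤ x)
  have hx0 : (0 : ℝ) < x := by linarith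
  have hL : 0 < Real.log x := by linarith
  have hz : (zz η x : ℝ) ≤ (x : ℝ) ^ (1 / 4 : ℝ) :=
    (Nat.floor_le (by positivity)).trans (Real.rpow_le_rpow_of_exponent_le hx1 (by linarith))
  have hq : 0 < (x : ℝ) ^ (1 / 4 : ℝ) := by positivity
  have hq1 : 1 ≤ (x : ℝ) ^ (1 / 4 : ℝ) := Real.one_le_rpow hx1 (by norm_num)
  have e2 : (x : ℝ) ^ (1 / 2 : ℝ) = ((x : ℝ) ^ (1 / 4 : ℝ)) ^ 2 := by
    rw [← Real.rpow_natCast, ← Real.rpow_mul hx0.le]; norm_num
  have e4 : (x : ℝ) = ((x : ℝ) ^ (1 / 4 : ℝ)) ^ 4 := by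
    rw [← Real.rpow_natCast, ← Real.rpow_mul hx0.le]; norm_num
  have hq2 : 2 ≤ (x : ℝ) ^ (1 / 4 : ℝ) := by
    refine le_of_pow_le_pow_left₀ (n := 4) (by norm_num) hq.le ?_
    rw [← e4]
    exact_mod_cast (by omega : 2 ^ 4 ≤ x)
  have h2z : 2 * zz η x ≤ x := by
    have : (2 * zz η x : ℝ) ≤ x := by
      rw [e4]
      generalize (x : ℝ) ^ (1 / 4 : ℝ) = t at hz hq2 ⊢
      have : 2 ≤ t ^ 3 := le_trans hq2 (le_self_pow₀ (by linarith) (by norm_num))
      nlinarith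
    exact_mod_cast this
  refine ⟨by omega, fun r hr => ?_⟩
  have hS : ∀ j, ∀ p ∈ grp m x j, p.Prime ∧ Real.log x ^ 2 ≤ p ∧ p ≤ zz η x ∧ ¬ p ∣ r := by
    intro j p hp
    obtain ⟨a1, -, a3, a4⟩ := g1 j p hp
    have a5 : p ≤ zz η x := by
      refine Nat.le_floor (a4.trans ?_)
      rw [Real.rpow_def_of_pos hx0]
      refine Real.exp_le_exp.2 (Real.sqrt_le_iff.2 ⟨by positivity, ?_⟩)
      rw [div_le_iff₀ (by positivity)] at l2
      nlinarith
    refine ⟨a1, a3, a5, fun hd => ?_⟩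
    rcases hr with rfl | ⟨b1, b2, -⟩
    · exact a1.not_dvd_one hd
    · have := (Nat.prime_dvd_prime_iff_eq a1 b1).1 hd
      omega
  have hr1 : 1 ≤ r := by
    rcases hr with rfl | ⟨b1, -, -⟩
    · exact le_rfl
    · exact b1.one_le
  have hr2 : (r : ℝ) ≤ 2 * (x : ℝ) ^ (1 / 4 : ℝ) := by
    rcases hr with rfl | ⟨-, -, b3⟩
    · rw [Nat.cast_one]; linarith
    · have : (r : ℝ) ≤ 2 * zz η x := by exact_mod_cast b3
      linarith
  have hrx : r ≤ x := by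
    rcases hr with rfl | ⟨-, -, b3⟩ <;> omega
  have hr0 : (0 : ℝ) < r := by exact_mod_cast hr1
  have hK : Real.exp (-(1200 * C / (η * e))) ≤ η * e / (1200 * C) := by
    rw [Real.exp_neg, ← inv_div (1200 * C) (η * e)]
    exact inv_anti₀ (by positivity) (by linarith [Real.add_one_le_exp (1200 * C / (η * e))])
  refine (nE_le (B := e / 1200 * (x / (r * Real.log x)) + (x : ℝ) ^ (1 / 4 : ℝ))
    (by positivity) hr1 hS fun j => ?_).trans ?_
  · refine (hx (grp m x j) r hr1 hrx fun p hp => ?_).trans (add_le_add_left ?_ _)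
    · obtain ⟨a1, a2, a3, a4⟩ := hS j p hp
      refine ⟨a1, ?_, a3, a4⟩
      have : (2 : ℝ) < p := by nlinarith
      exact_mod_cast this
    · calc _ ≤ C * x / (r * η * Real.log x) * (η * e / (1200 * C)) :=
            mul_le_mul_of_nonneg_left ((Real.exp_le_exp.2 (neg_le_neg (g3 j))).trans hK)
              (by positivity)
        _ = _ := by field_simp
  · have t1 : (x : ℝ) / r * (2 / Real.log x ^ 2) ≤ e / 1200 * (x / (r * Real.log x)) := by
      rw [div_le_iff₀ he] at l3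
      calc _ = 2 / Real.log x * (x / (r * Real.log x)) := by field_simp
        _ ≤ _ := by
          refine mul_le_mul_of_nonneg_right ?_ (by positivity)
          rw [div_le_div_iff₀ hL (by norm_num)]
          linarith
    have t2 : 2 * (x : ℝ) ^ (1 / 4 : ℝ) ≤ e / 1200 * (x / (r * Real.log x)) := by
      rw [← mul_div_assoc, le_div_iff₀ (by positivity)]
      rw [e2, div_mul_eq_mul_div, div_le_iff₀ he] at l4
      calc _ ≤ 2 * (x : ℝ) ^ (1 / 4 : ℝ) * (2 * (x : ℝ) ^ (1 / 4 : ℝ) * Real.log x) := by gcongr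
        _ = ((x : ℝ) ^ (1 / 4 : ℝ)) ^ 2 * (4800 * Real.log x) / 1200 := by ring
        _ ≤ ((x : ℝ) ^ (1 / 4 : ℝ)) ^ 2 * (((x : ℝ) ^ (1 / 4 : ℝ)) ^ 2 * e) / 1200 := by gcongr
        _ = e / 1200 * ((x : ℝ) ^ (1 / 4 : ℝ)) ^ 4 := by ring
        _ = _ := by rw [← e4]
    rw [mul_div_assoc]
    linarith

open Classical in
theorem diff_le {S : Fin 400 → Finset ℕ} {f g : ℕ → ℝ} (hf : ∀ n, |f n| ≤ 1) (hg : ∀ n, |g n| ≤ 1)
    (h : ∀ n, ¬ Exc S n → g n = f n) (T : Finset ℕ) (φ : ℕ → ℕ) :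
    |∑ m ∈ T, g (φ m) - ∑ m ∈ T, f (φ m)| ≤ 2 * (T.filter fun m => Exc S (φ m)).card := by
  rw [← sum_sub_distrib]
  refine (abs_sum_le_sum_abs _ _).trans ?_
  calc _ ≤ ∑ m ∈ T, if Exc S (φ m) then (2 : ℝ) else 0 := by
        refine sum_le_sum fun m _ => ?_
        split_ifs with he
        · exact (abs_sub _ _).trans (by linarith [hf (φ m), hg (φ m)])
        · rw [h _ he, sub_self, abs_zero]
    _ = _ := by rw [← sum_filter, sum_const, nsmul_eq_mul, mul_comm]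

end MainR

open MainR in
theorem mainR : GrpStmt → TIIStmt → AsmStmt → MissStmt → RamStmt → MainRStmt := by
  classical
  rintro hG hT ⟨C₁, hC₁, hA⟩ hM hR
  refine ⟨C₁, hC₁, fun m η ε hm h0 h1 hε => ?_⟩
  obtain ⟨δ, hδ, hA⟩ := hA η (ε / 3) h0 h1 (by positivity)
  obtain ⟨C, hT⟩ := hT m η δ hm h0 h1 hδ
  have he : 0 < ε / (3 * (C₁ / η + 2)) := by positivity
  filter_upwards [hA C, hT, hG m 0 hm, exc_count hG hM hm h0 h1 he, ev_log 1] with
    x hA hT ⟨g1, g2, _⟩ ⟨hz, hE⟩ hL f hf hex κ hκ hR2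
  set e := ε / (3 * (C₁ / η + 2)) with he'
  obtain ⟨F, hF, hF0, hF1⟩ := hR 400 (grp m x) f (fun j p hp => (g1 j p hp).1) g2 hf
    fun j p hp p' hp' t ht ht' => by
      obtain ⟨a1, a2, a3, a4⟩ := g1 j p hp
      obtain ⟨b1, b2, b3, b4⟩ := g1 j p' hp'
      exact hex p p' t a1 b1 a2 b2 (by nlinarith) (by nlinarith) a4 b4 ht ht'
  have hfe : ∀ n, ¬ Exc (grp m x) n → f0 (grp m x) F n = f n := fun n hn => by
    refine hF1 n (fun j => ?_) fun j p hp hd => hn ⟨j, Or.inr ⟨p, hp, hd⟩⟩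
    by_contra hc
    exact hn ⟨j, Or.inl fun p hp hd => hc ⟨p, hp, hd⟩⟩
  have key := hA (fun N => f0 (grp m x) F (N - 1)) (fun n => hF0 _) (hT F hF hF0) (κ + 2 * e)
    (by positivity) fun r a1 a2 a3 => by
      have d := (diff_le hf hF0 hfe ((Icc 1 (2 * x)).filter
        (fun m => r * m ∈ Ioc x (2 * x) ∧ rough (zz η x) m)) fun m => r * m - 1).trans
        (mul_le_mul_of_nonneg_left (hE r (Or.inr ⟨a1, a2, a3⟩)) (by norm_num))
      have d2 := hR2 r a1 a2 a3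
      have d3 := abs_sub_abs_le_abs_sub (R2 η x (fun N => f0 (grp m x) F (N - 1)) r)
        (R2 η x (fun N => f (N - 1)) r)
      have e1 : (κ + 2 * e) * x / (r * Real.log x) =
          κ * x / (r * Real.log x) + 2 * (e * x / (r * Real.log x)) := by ring
      rw [e1]
      unfold R2 at d2 d3 ⊢
      linarith
  have hE1 := hE 1 (Or.inl rfl)
  rw [Nat.cast_one, one_mul] at hE1
  have hsub : ∀ T : Finset ℕ, (∀ N ∈ T, N ∈ Ioc x (2 * x) ∧ rough (zz η x) N) →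
      |∑ N ∈ T, f0 (grp m x) F (N - 1) - ∑ N ∈ T, f (N - 1)| ≤ 2 * (e * x / Real.log x) := by
    intro T hT
    refine (diff_le hf hF0 hfe T fun N => N - 1).trans
      (mul_le_mul_of_nonneg_left (le_trans (Nat.cast_le.2 (card_le_card fun N hN => ?_)) hE1)
        (by norm_num))
    obtain ⟨b1, b2⟩ := mem_filter.1 hN
    obtain ⟨b3, b4⟩ := hT N b1
    have b5 := mem_Ioc.1 b3
    refine mem_filter.2 ⟨mem_filter.2 ⟨mem_Icc.2 ⟨by omega, b5.2⟩, ?_, b4⟩, ?_⟩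
    · rwa [one_mul]
    · rwa [one_mul]
  have d1 := hsub ((Ioc x (2 * x)).filter Nat.Prime) fun N hN => by
    obtain ⟨b1, b2⟩ := mem_filter.1 hN
    refine ⟨b1, fun p hp hd => ?_⟩
    have := (Nat.prime_dvd_prime_iff_eq hp b2).1 hd
    have := (mem_Ioc.1 b1).1
    omega
  have d2 := hsub ((Ioc x (2 * x)).filter (rough (zz η x))) fun N hN => mem_filter.1 hN
  have e1 : (C₁ * κ / η + ε) * x / Real.log x =
      (C₁ * (κ + 2 * e) / η + ε / 3) * x / Real.log x + 4 * (e * x / Real.log x) := by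
    rw [he']
    field_simp
    ring
  rw [e1]
  unfold Sp R1 at key ⊢
  rw [abs_le] at key d1 d2 ⊢
  constructor <;> linarith [key.1, key.2, d1.1, d1.2, d2.1, d2.2]

end Crest.Agent.R26
end

-- ▼ part PVc/R26/FLAux
section

/-! Row 26: sieve bookkeeping shared by `FL`, `MainNu`, `MainI`. -/

set_option autoImplicit false

namespace Crest.Agent.R26.FLA

open Finset Filter
open Crest.Agent.R5 (pr pd ee nit)

theorem mem_pr0 {z p : ℕ} : p ∈ pr 0 z ↔ p.Prime ∧ p ≤ z := by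
  rw [pr, mem_filter, mem_Icc, Nat.floor_natCast]
  exact ⟨fun h => ⟨h.2.1, h.1.2⟩, fun h => ⟨⟨h.1.pos, h.2⟩, h.1, by exact_mod_cast h.1.pos⟩⟩

theorem pd_pos {z : ℕ} {s : Finset ℕ} (hs : s ⊆ pr 0 z) : 0 < pd s :=
  prod_pos fun _ hp => (mem_pr0.1 (hs hp)).1.pos

theorem pd_dvd {z : ℕ} {s : Finset ℕ} (hs : s ⊆ pr 0 z) {n : ℕ} :
    pd s ∣ n ↔ ∀ p ∈ s, p ∣ n :=
  ⟨fun h _ hp => (dvd_prod_of_mem _ hp).trans h, fun h =>
    prod_primes_dvd n (fun _ hp => (mem_pr0.1 (hs hp)).1.prime) h⟩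

/-- few sets of primes have a small product -/
theorem card_supp (z : ℕ) {Y : ℝ} (hY : 0 ≤ Y) :
    (((pr 0 z).powerset.filter fun s => (pd s : ℝ) ≤ Y).card : ℝ) ≤ Y := by
  have h : ((pr 0 z).powerset.filter fun s => (pd s : ℝ) ≤ Y).card ≤ (Icc 1 ⌊Y⌋₊).card := by
    refine card_le_card_of_injOn pd (fun s hs => ?_) fun s hs t ht e => ?_
    · obtain ⟨a, b⟩ := mem_filter.1 (mem_coe.1 hs)
      exact mem_coe.2 (mem_Icc.2 ⟨pd_pos (mem_powerset.1 a), Nat.le_floor b⟩)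
    · have a := mem_powerset.1 (mem_filter.1 (mem_coe.1 hs)).1
      have b := mem_powerset.1 (mem_filter.1 (mem_coe.1 ht)).1
      rw [← Nat.primeFactors_prod (s := s) fun p hp => (mem_pr0.1 (a hp)).1,
        ← Nat.primeFactors_prod (s := t) fun p hp => (mem_pr0.1 (b hp)).1]
      exact congrArg Nat.primeFactors e
  rw [Nat.card_Icc, Nat.add_sub_cancel] at h
  exact (Nat.cast_le.2 h).trans (Nat.floor_le hY)

/-- a sum with bounded terms supported on small products -/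
theorem abs_sum_le (z : ℕ) {Y B : ℝ} (hY : 0 ≤ Y) (hB : 0 ≤ B) (g : Finset ℕ → ℝ)
    (h : ∀ s ⊆ pr 0 z, g s ≠ 0 → (pd s : ℝ) ≤ Y ∧ |g s| ≤ B) :
    |∑ s ∈ (pr 0 z).powerset, g s| ≤ Y * B := by
  rw [← sum_filter_of_ne (p := fun s => (pd s : ℝ) ≤ Y)
    fun s hs h0 => (h s (mem_powerset.1 hs) h0).1]
  refine (abs_sum_le_sum_abs _ _).trans ((sum_le_card_nsmul _ _ B fun s hs => ?_).trans ?_)
  · by_cases h0 : g s = 0
    · rwa [h0, abs_zero]
    · exact (h s (mem_powerset.1 (mem_filter.1 hs).1) h0).2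
  · rw [nsmul_eq_mul]
    exact mul_le_mul_of_nonneg_right (card_supp z hY) hB

theorem nu_eq (z m : ℕ) (l : Finset ℕ → ℝ) :
    ∑ s ∈ ((pr 0 z).filter fun p => p ∣ m).powerset, l s =
      ∑ s ∈ (pr 0 z).powerset, if pd s ∣ m then l s else 0 := by
  rw [← sum_filter]
  refine sum_congr ?_ fun _ _ => rfl
  ext s
  simp only [mem_powerset, mem_filter]
  constructor
  · intro h
    have a : s ⊆ pr 0 z := h.trans (filter_subset _ _)
    exact ⟨a, (pd_dvd a).2 fun p hp => (mem_filter.1 (h hp)).2⟩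
  · rintro ⟨a, b⟩ p hp
    exact mem_filter.2 ⟨a hp, (pd_dvd a).1 b p hp⟩

theorem empty_iff (z m : ℕ) : ((pr 0 z).filter fun p => p ∣ m) = ∅ ↔ rough z m := by
  rw [filter_eq_empty_iff]
  constructor
  · intro h p hp hd
    by_contra hc
    exact h (mem_pr0.2 ⟨hp, not_lt.1 hc⟩) hd
  · intro h p hp hd
    exact absurd (h p (mem_pr0.1 hp).1 hd) (not_lt.2 (mem_pr0.1 hp).2)

open Classical in
theorem ite_eq (z m : ℕ) : (if ((pr 0 z).filter fun p => p ∣ m) = ∅ then (1 : ℝ) else 0) =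
    if rough z m then 1 else 0 := by
  simp only [empty_iff]

theorem div_bd (y d : ℕ) :
    ((y / d : ℕ) : ℝ) ≤ (y : ℝ) / d ∧ (y : ℝ) / d < (y / d : ℕ) + 1 := by
  refine ⟨Nat.cast_div_le, ?_⟩
  rw [← Nat.floor_div_eq_div (K := ℝ)]
  exact Nat.lt_floor_add_one _

/-- multiples of `d` in an interval -/
theorem count {y₁ y₂ : ℕ} (h : y₁ ≤ y₂) (d : ℕ) :
    |∑ m ∈ Ioc y₁ y₂, (if d ∣ m then (1 : ℝ) else 0) - ((y₂ : ℝ) - y₁) / d| ≤ 1 := by
  have e : ∀ y : ℕ, ∑ m ∈ Ioc 0 y, (if d ∣ m then (1 : ℝ) else 0) = (y / d : ℕ) := fun y => by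
    rw [sum_boole, Nat.Ioc_filter_dvd_card_eq_div]
  have e2 := sum_Ioc_consecutive (fun m => if d ∣ m then (1 : ℝ) else 0) (Nat.zero_le y₁) h
  rw [e, e] at e2
  obtain ⟨a1, a2⟩ := div_bd y₁ d
  obtain ⟨b1, b2⟩ := div_bd y₂ d
  rw [sub_div, abs_le]
  constructor <;> linarith

theorem ev_rpow {η : ℝ} (hη : 0 < η) (K : ℝ) : ∀ᶠ x : ℕ in atTop, K ≤ (x : ℝ) ^ η :=
  ((tendsto_rpow_atTop hη).comp tendsto_natCast_atTop_atTop).eventually_ge_atTop K

theorem zz_le (η : ℝ) (x : ℕ) : (zz η x : ℝ) ≤ (x : ℝ) ^ η := Nat.floor_le (by positivity)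

end Crest.Agent.R26.FLA
end

-- ▼ part PVc/R26/FL
section

/-! Row 26: the fundamental lemma. -/

set_option autoImplicit false

namespace Crest.Agent.R26

open Finset Filter
open Crest.Agent.R5 (pr pd ee nit)

namespace FLA

/-- Mertens' product, upper bound -/
theorem prod_le : ∃ C : ℝ, 0 < C ∧ ∀ z : ℕ, 2 ≤ z →
    ∏ p ∈ pr 0 z, (1 - 1 / (p : ℝ)) ≤ C / Real.log z := by
  obtain ⟨C, -, h, -⟩ := R5.mertens
  refine ⟨Real.exp (Real.log (Real.log 2) + C / Real.log 2), Real.exp_pos _, fun z hz => ?_⟩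
  have hz' : (2 : ℝ) ≤ z := by exact_mod_cast hz
  have hl : 0 < Real.log z := Real.log_pos (by linarith)
  have h1 := (abs_le.1 (h 2 z le_rfl hz')).1
  have h2 : ∑ p ∈ pr 2 z, 1 / (p : ℝ) ≤ ∑ p ∈ pr 0 z, 1 / (p : ℝ) :=
    sum_le_sum_of_subset_of_nonneg (monotone_filter_right _ fun p _ hp =>
      ⟨hp.1, lt_trans (by norm_num) hp.2⟩) fun _ _ _ => by positivity
  calc ∏ p ∈ pr 0 z, (1 - 1 / (p : ℝ)) ≤ ∏ p ∈ pr 0 z, Real.exp (-(1 / (p : ℝ))) :=
        prod_le_prod (fun p _ => sub_nonneg.2 (BH.w01 p).2) fun p _ => by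
          linarith [Real.add_one_le_exp (-(1 / (p : ℝ)))]
    _ = Real.exp (-∑ p ∈ pr 0 z, 1 / (p : ℝ)) := by rw [← Real.exp_sum, sum_neg_distrib]
    _ ≤ Real.exp (Real.log (Real.log 2) + C / Real.log 2 - Real.log (Real.log z)) :=
        Real.exp_le_exp.2 (by linarith)
    _ = _ := by rw [Real.exp_sub, Real.exp_log hl]

/-- choice of the sieve parameter -/
theorem exists_m {γ K : ℝ} (hγ : 0 < γ) (hK : 0 < K) : ∃ η₀ : ℝ, 0 < η₀ ∧ ∀ η : ℝ, 0 < η →
    η ≤ η₀ → η ≤ 1 ∧ ∃ m : ℕ, η * (6 * (m + 1) : ℕ) ≤ γ ∧ K / 2 ^ m ≤ η ^ 2 := by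
  have h := ((tendsto_pow_const_div_const_pow_of_one_lt 2 (r := 2) (by norm_num)).comp
    (tendsto_add_atTop_nat 2)).eventually_le_const (u := γ ^ 2 / (144 * K)) (by positivity)
  obtain ⟨m₀, hm₀⟩ := eventually_atTop.1 h
  refine ⟨min 1 (γ / (6 * (m₀ + 1))), by positivity, fun η h0 h1 => ?_⟩
  obtain ⟨h1, h2⟩ := le_min_iff.1 h1
  have h3 : m₀ + 1 ≤ ⌊γ / (6 * η)⌋₊ := by
    refine Nat.le_floor ?_
    rw [le_div_iff₀ (by positivity)] at h2 ⊢
    push_cast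
    linarith
  obtain ⟨m, hm⟩ : ∃ m, ⌊γ / (6 * η)⌋₊ = m + 1 := ⟨⌊γ / (6 * η)⌋₊ - 1, by omega⟩
  have h4 := Nat.floor_le (a := γ / (6 * η)) (by positivity)
  have h5 := Nat.lt_floor_add_one (γ / (6 * η))
  rw [hm] at h4 h5
  rw [le_div_iff₀ (by positivity)] at h4
  rw [div_lt_iff₀ (by positivity)] at h5
  have h6 := hm₀ m (by omega)
  simp only [Function.comp] at h6
  rw [div_le_div_iff₀ (by positivity) (by positivity), pow_add] at h6
  push_cast at h4 h5 h6 ⊢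
  refine ⟨h1, m, by linarith, ?_⟩
  have h7 : γ ^ 2 ≤ ((m + 1 + 1) * (6 * η)) ^ 2 := pow_le_pow_left₀ hγ.le h5.le 2
  have hp : (0 : ℝ) < 2 ^ m := by positivity
  have hq : (0 : ℝ) < ((m : ℝ) + 2) ^ 2 := by positivity
  rw [div_le_iff₀ hp]
  have h8 := mul_le_mul_of_nonneg_right h7 hp.le
  refine le_of_mul_le_mul_left ?_ hq
  nlinarith

/-- the sum of the sieve majorant minus the sieve minorant over an interval -/
theorem diff_le (z : ℕ) {Y : ℝ} (hY : 0 ≤ Y) {lp lm : Finset ℕ → ℝ}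
    (h1 : ∀ s, |lp s| ≤ 1 ∧ |lm s| ≤ 1) (h2 : ∀ s, (lp s ≠ 0 ∨ lm s ≠ 0) → (pd s : ℝ) ≤ Y)
    {y₁ y₂ : ℕ} (hy : y₁ ≤ y₂) :
    ∑ m ∈ Ioc y₁ y₂, ∑ s ∈ ((pr 0 z).filter fun p => p ∣ m).powerset, (lp s - lm s) ≤
      ((y₂ : ℝ) - y₁) * ∑ s ∈ (pr 0 z).powerset, (lp s - lm s) / pd s + 2 * Y := by
  simp only [nu_eq]
  rw [sum_comm, mul_sum, ← sub_le_iff_le_add', ← sum_sub_distrib, mul_comm 2]
  refine (le_abs_self _).trans (abs_sum_le z hY (by norm_num) _ fun s _ h0 => ?_)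
  have e : ∑ m ∈ Ioc y₁ y₂, (if pd s ∣ m then lp s - lm s else 0) -
      ((y₂ : ℝ) - y₁) * ((lp s - lm s) / pd s) = (lp s - lm s) *
        (∑ m ∈ Ioc y₁ y₂, (if pd s ∣ m then (1 : ℝ) else 0) - ((y₂ : ℝ) - y₁) / pd s) := by
    rw [mul_sub, mul_sum]
    simp only [mul_ite, mul_one, mul_zero]
    ring
  rw [e] at h0 ⊢
  refine ⟨h2 s ?_, ?_⟩
  · by_contra hc
    push Not at hc
    exact h0 (by rw [hc.1, hc.2, sub_zero, zero_mul])
  · rw [abs_mul]
    exact (mul_le_of_le_one_right (abs_nonneg _) (count hy _)).trans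
      ((abs_sub _ _).trans (by linarith [(h1 s).1, (h1 s).2]))

theorem log_zz {η : ℝ} {x : ℕ} (h : 4 ≤ (x : ℝ) ^ η) (hx : 0 < x) :
    2 ≤ zz η x ∧ η * Real.log x ≤ 2 * Real.log (zz η x) := by
  have h1 : (x : ℝ) ^ η < zz η x + 1 := Nat.lt_floor_add_one _
  have h2 : (3 : ℝ) < zz η x := by linarith
  have h3 : 3 < zz η x := by exact_mod_cast h2
  refine ⟨by omega, ?_⟩
  rw [← Real.log_rpow (by exact_mod_cast hx), show (2 : ℝ) = (2 : ℕ) by norm_num, ← Real.log_pow]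
  exact Real.log_le_log (by linarith) (by nlinarith)

end FLA

open FLA in
theorem fl : FLStmt := by
  intro γ ε hγ hε
  obtain ⟨C, hC, H⟩ := BH.bh'
  obtain ⟨C', hC', H'⟩ := prod_le
  obtain ⟨η₀, h0, hm⟩ := exists_m hγ (K := C + 2 * C * C' / ε) (by positivity)
  refine ⟨η₀, h0, fun η hη hη' => ?_⟩
  obtain ⟨hη1, m, hm1, hm2⟩ := hm η hη hη'
  filter_upwards [ev_rpow hη 4, eventually_ge_atTop 2] with x hx4 hx2
  obtain ⟨hz, hlz⟩ := log_zz hx4 (by omega)
  have hx : (2 : ℝ) ≤ x := by exact_mod_cast hx2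
  have hL : 0 < Real.log x := Real.log_pos (by linarith)
  have hlz0 : 0 < Real.log (zz η x) := by nlinarith [mul_pos hη hL]
  obtain ⟨lp, lm, a1, a2, a3, a4, a5, -⟩ := H (zz η x) m (pr 0 (zz η x)) (by omega)
    fun p hp => mem_pr0.1 hp
  have b3 : ∀ s, (lp s ≠ 0 ∨ lm s ≠ 0) → (pd s : ℝ) ≤ (x : ℝ) ^ γ := fun s hs =>
    calc (pd s : ℝ) ≤ (zz η x : ℝ) ^ (6 * (m + 1)) := by exact_mod_cast (a3 s hs).2
      _ ≤ ((x : ℝ) ^ η) ^ (6 * (m + 1)) := pow_le_pow_left₀ (by positivity) (zz_le η x) _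
      _ = (x : ℝ) ^ (η * (6 * (m + 1) : ℕ)) := (Real.rpow_mul_natCast (by positivity) _ _).symm
      _ ≤ _ := Real.rpow_le_rpow_of_exponent_le (by linarith) hm1
  have hV := BH.Vnn (pr 0 (zz η x))
  rw [add_div] at hm2
  have c0 : 0 ≤ C / 2 ^ m := by positivity
  have c1 : 0 ≤ 2 * C * C' / ε / 2 ^ m := by positivity
  have c2 : C / 2 ^ m ≤ 1 := by nlinarith
  have c3 : C / 2 ^ m * (C' / Real.log (zz η x)) ≤ ε * η / Real.log x := by
    have d1 : 2 * (C / 2 ^ m) * C' ≤ ε * η ^ 2 := by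
      have : 2 * (C / 2 ^ m) * C' = ε * (2 * C * C' / ε / 2 ^ m) := by field_simp
      rw [this]
      exact mul_le_mul_of_nonneg_left (by linarith) hε.le
    rw [← mul_div_assoc, div_le_div_iff₀ hlz0 hL]
    nlinarith [mul_le_mul_of_nonneg_right d1 hL.le,
      mul_le_mul_of_nonneg_left hlz (mul_pos hε hη).le]
  refine ⟨lp, ⟨fun T hT => (a1 T hT).2, fun s => (a2 s).1,
    fun s hs => ⟨(a3 s (Or.inl hs)).1, b3 s (Or.inl hs)⟩, ?_⟩, fun y₁ y₂ hy => ?_⟩
  · simp only [sub_div, sum_sub_distrib] at a4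
    nlinarith
  · have hy' : (0 : ℝ) ≤ (y₂ : ℝ) - y₁ := sub_nonneg.2 (by exact_mod_cast hy)
    refine le_trans (sum_le_sum fun n _ => ?_)
      ((diff_le (zz η x) (by positivity) a2 b3 hy).trans (add_le_add_left ?_ _))
    · rw [sum_sub_distrib, ← ite_eq]
      exact sub_le_sub_left (a1 _ (filter_subset _ _)).1 _
    · refine (mul_le_mul_of_nonneg_left (a4.trans ((mul_le_mul_of_nonneg_left (H' _ hz) c0).trans
        c3)) hy').trans_eq (by ring)

end Crest.Agent.R26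
end

-- ▼ part PVc/R26/MainNu
section

/-! Row 26: main theorems. -/

set_option autoImplicit false

namespace Crest.Agent.R26

open Finset Filter
open Crest.Agent.R5 (pr pd ee nit)

namespace FLA

theorem mem_iff {x r m : ℕ} (hr : 1 ≤ r) :
    r * m ∈ Ioc x (2 * x) ↔ m ∈ Ioc (x / r) (2 * x / r) := by
  rw [mem_Ioc, mem_Ioc, Nat.div_lt_iff_lt_mul hr, Nat.le_div_iff_mul_le hr, mul_comm m r]

theorem nuSum_eq (η : ℝ) (x : ℕ) (l : Finset ℕ → ℝ) (f : ℕ → ℝ) {r : ℕ} (hr : 1 ≤ r) :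
    nuSum η x l f r = ∑ m ∈ Ioc (x / r) (2 * x / r),
      (∑ s ∈ ((pr 0 (zz η x)).filter fun p => p ∣ m).powerset, l s) * f (r * m - 1) := by
  simp only [nu_eq, sum_mul]
  rw [sum_comm, nuSum]
  refine sum_congr rfl fun s _ => ?_
  simp only [ite_mul, zero_mul]
  rw [← sum_filter, ← mul_sum]
  congr 1
  symm
  refine sum_bij (fun m _ => r * m) (fun m hm => ?_) (fun m _ m' _ h => ?_) (fun N hN => ?_)
    fun _ _ => rfl
  · obtain ⟨a, b⟩ := mem_filter.1 hm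
    exact mem_filter.2 ⟨(mem_iff hr).2 a, mul_dvd_mul_left r b⟩
  · exact Nat.eq_of_mul_eq_mul_left hr h
  · obtain ⟨a, c, rfl⟩ := mem_filter.1 hN
    rw [mul_assoc] at a
    exact ⟨pd s * c, mem_filter.2 ⟨(mem_iff hr).1 a, dvd_mul_right _ _⟩, (mul_assoc _ _ _).symm⟩

open Classical in
theorem R2_eq (η : ℝ) (x : ℕ) (s : ℕ → ℝ) {r : ℕ} (hr : 1 ≤ r) :
    R2 η x s r = ∑ m ∈ Ioc (x / r) (2 * x / r),
      (if rough (zz η x) m then 1 else 0) * s (r * m) := by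
  simp only [ite_mul, one_mul, zero_mul]
  rw [← sum_filter, R2]
  refine sum_congr ?_ fun _ _ => rfl
  ext m
  simp only [mem_filter, mem_iff hr]
  refine ⟨fun h => h.2, fun h => ⟨?_, h⟩⟩
  obtain ⟨a, b⟩ := mem_Ioc.1 h.1
  exact mem_Icc.2 ⟨Nat.zero_lt_of_lt a, b.trans (Nat.div_le_self _ _)⟩

theorem R1_eq (η : ℝ) (x : ℕ) (s : ℕ → ℝ) : R1 η x s = R2 η x s 1 := by
  rw [R2_eq η x s le_rfl, R1, sum_filter]
  simp

open Classical in
theorem R2_le {η γ : ℝ} {x : ℕ} {l : Finset ℕ → ℝ} (hl : Wts η γ x l) {f : ℕ → ℝ}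
    (hf : ∀ n, |f n| ≤ 1) {r : ℕ} (hr : 1 ≤ r) :
    |R2 η x (fun N => f (N - 1)) r| ≤ |nuSum η x l f r| + ∑ m ∈ Ioc (x / r) (2 * x / r),
      (∑ s ∈ ((pr 0 (zz η x)).filter fun p => p ∣ m).powerset, l s -
        if rough (zz η x) m then 1 else 0) := by
  rw [← sub_le_iff_le_add']
  refine (abs_sub_abs_le_abs_sub _ _).trans ?_
  rw [abs_sub_comm, R2_eq _ _ _ hr, nuSum_eq _ _ _ _ hr, ← sum_sub_distrib]
  refine (abs_sum_le_sum_abs _ _).trans (sum_le_sum fun m _ => ?_)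
  have h := hl.upper _ (filter_subset (fun p => p ∣ m) _)
  rw [ite_eq] at h
  rw [← sub_mul, abs_mul, abs_of_nonneg (sub_nonneg.2 h)]
  exact mul_le_of_le_one_right (sub_nonneg.2 h) (hf _)

theorem arith {c y L r d : ℝ} (hc : 0 < c) (hy : 2 ≤ y) (hy' : 16 ≤ c * y) (hL : 1 ≤ c * L)
    (hL' : L ≤ 4 * y) (hr : 1 ≤ r) (hr' : r ≤ 2 * y) (hd : d ≤ y ^ 4 / r + 1) :
    y ^ 4 / (r * L ^ 2) + (c * d / L + 2 * y) ≤ 4 * c * y ^ 4 / (r * L) := by
  have hL0 : 0 < L := pos_of_mul_pos_left (b := c) (by linarith [mul_comm c L]) hc.le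
  have hr0 : 0 < r := by linarith
  have h0 : 0 < y ^ 4 := by positivity
  have h1 : y ^ 4 / (r * L ^ 2) ≤ c * y ^ 4 / (r * L) := by
    rw [div_le_div_iff₀ (by positivity) (by positivity)]
    nlinarith [mul_le_mul_of_nonneg_left hL (show 0 ≤ y ^ 4 * (r * L) by positivity)]
  have h2 : 1 ≤ y ^ 4 / r := by
    rw [one_le_div hr0]
    have : 2 ^ 3 ≤ y ^ 3 := pow_le_pow_left₀ (by norm_num) hy 3
    nlinarith
  have h3 : c * d / L ≤ 2 * (c * y ^ 4 / (r * L)) := by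
    calc c * d / L ≤ c * (2 * (y ^ 4 / r)) / L := by gcongr; linarith
      _ = _ := by field_simp
  have h4 : 2 * y ≤ c * y ^ 4 / (r * L) := by
    rw [le_div_iff₀ (by positivity)]
    calc 2 * y * (r * L) ≤ 2 * y * (2 * y * (4 * y)) := by gcongr
      _ = 16 * y ^ 3 := by ring
      _ ≤ c * y * y ^ 3 := by gcongr
      _ = _ := by ring
  have e : 4 * c * y ^ 4 / (r * L) = 4 * (c * y ^ 4 / (r * L)) := by ring
  linarith

end FLA

open FLA in
theorem mainNu : FLStmt → MainRStmt → MainNuStmt := by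
  rintro hFL ⟨C₁, hC₁, hR⟩ m γ ε hm hγ hε
  obtain ⟨ε', hε', hε''⟩ : ∃ ε' : ℝ, 0 < ε' ∧ 8 * (C₁ + 1) * ε' = ε :=
    ⟨ε / (8 * (C₁ + 1)), by positivity, by field_simp⟩
  obtain ⟨η₀, h0, hFL⟩ := hFL (min γ (1 / 4)) ε' (by positivity) hε'
  obtain ⟨η, hη, η1, η2, η3⟩ : ∃ η : ℝ, 0 < η ∧ η ≤ η₀ ∧ η ≤ γ ∧ η ≤ 1 / 100 :=
    ⟨min η₀ (min γ (1 / 100)), by positivity, min_le_left _ _,
      (min_le_right _ _).trans (min_le_left _ _), (min_le_right _ _).trans (min_le_right _ _)⟩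
  refine ⟨η, hη, η2, ?_⟩
  have hc : 0 < ε' * η := mul_pos hε' hη
  filter_upwards [hFL η hη η1, hR m η (ε / 4) hm hη η3 (by positivity),
    ev_rpow (η := 1 / 4) (by norm_num) 2, ev_rpow (η := 1 / 4) (by norm_num) (16 / (ε' * η)),
    (Real.tendsto_log_atTop.comp tendsto_natCast_atTop_atTop).eventually_ge_atTop (1 / (ε' * η)),
    eventually_ge_atTop 1] with x ⟨l, hl, hl'⟩ hR y2 y16 hL hx1
  have hx : (1 : ℝ) ≤ x := by exact_mod_cast hx1
  refine ⟨l, ⟨hl.upper, hl.abs_le, fun s hs => ⟨(hl.supp s hs).1, (hl.supp s hs).2.trans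
    (Real.rpow_le_rpow_of_exponent_le hx (min_le_left _ _))⟩, hl.mass⟩, fun f hf hE n1 n2 => ?_⟩
  have e4 : ((x : ℝ) ^ (1 / 4 : ℝ)) ^ 4 = x := by
    rw [← Real.rpow_mul_natCast (by positivity)]; norm_num
  have hL' : Real.log x ≤ 4 * (x : ℝ) ^ (1 / 4 : ℝ) := by
    have := Real.log_le_rpow_div (x := x) (by positivity) (ε := 1 / 4) (by norm_num)
    linarith
  rw [div_le_iff₀' hc] at y16
  rw [Function.comp, div_le_iff₀' hc] at hL
  have hL0 : 0 < Real.log x :=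
    pos_of_mul_pos_left (b := ε' * η) (by linarith [mul_comm (ε' * η) (Real.log x)]) hc.le
  have key : ∀ r : ℕ, 1 ≤ r → (r : ℝ) ≤ 2 * (x : ℝ) ^ (1 / 4 : ℝ) →
      |nuSum η x l f r| ≤ x / (r * Real.log x ^ 2) →
      |R2 η x (fun N => f (N - 1)) r| ≤ 4 * (ε' * η) * x / (r * Real.log x) := by
    intro r hr hr' h
    have h1 := hl' (x / r) (2 * x / r) (Nat.div_le_div_right (by omega))
    have h2 := Real.rpow_le_rpow_of_exponent_le hx (min_le_right γ (1 / 4))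
    have h3 := arith hc y2 y16 hL hL' (r := r) (by exact_mod_cast hr) hr'
      (d := ((2 * x / r : ℕ) : ℝ) - (x / r : ℕ)) (by
        have a := (div_bd (2 * x) r).1
        have b := (div_bd x r).2
        rw [e4]
        push_cast at a
        rw [mul_div_assoc] at a
        linarith)
    rw [e4] at h3
    linarith [R2_le hl hf hr]
  have h1 := hR f hf hE (4 * (ε' * η)) (by positivity) fun r hr _ hr' => key r hr.pos (by
    have a : (r : ℝ) ≤ 2 * zz η x := by exact_mod_cast hr'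
    have b := Real.rpow_le_rpow_of_exponent_le hx (show η ≤ 1 / 4 by linarith)
    linarith [zz_le η x]) (n2 r hr ‹_› hr')
  have h2 := key 1 le_rfl (by push_cast; linarith) (by simpa using n1)
  rw [← R1_eq, Nat.cast_one, one_mul] at h2
  have e : C₁ * (4 * (ε' * η)) / η = 4 * C₁ * ε' := by field_simp
  rw [e] at h1
  have h3 : 0 ≤ (x : ℝ) / Real.log x := by positivity
  rw [mul_div_assoc] at h1 h2 ⊢
  have h4 : 4 * C₁ * ε' + ε / 4 + 4 * (ε' * η) ≤ ε := by nlinarith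
  linarith [abs_sub_abs_le_abs_sub (Sp x fun N => f (N - 1)) (R1 η x fun N => f (N - 1)),
    mul_le_mul_of_nonneg_right h4 h3]

end Crest.Agent.R26
end

-- ▼ part PVc/R26/MainI
section

/-! Row 26: main theorem, type I form. -/

set_option autoImplicit false

namespace Crest.Agent.R26

open Finset Filter
open Crest.Agent.R5 (pr pd ee nit)

open FLA in
theorem mainI : MainNuStmt → MainIStmt := by
  intro H m θ ε hm hθ hε
  have hγ : 0 < θ / 3 := by positivity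
  obtain ⟨η, hη, hη', H⟩ := H m (θ / 3) ε hm hγ hε
  filter_upwards [H, ev_rpow hγ 2, ev_rpow hγ (6 / θ), eventually_ge_atTop 2]
    with x ⟨l, hl, H⟩ y2 y6 hx2 f hf hE hI
  have hx : (2 : ℝ) ≤ x := by exact_mod_cast hx2
  have hL : 0 < Real.log x := Real.log_pos (by linarith)
  have hL' := Real.log_le_rpow_div (x := x) (by positivity) hγ
  have e3 : (x : ℝ) ^ θ = ((x : ℝ) ^ (θ / 3)) ^ 3 := by
    rw [← Real.rpow_mul_natCast (by positivity)]; norm_num
  have e6 : (x : ℝ) ^ (1 - 2 * θ) = x / ((x : ℝ) ^ (θ / 3)) ^ 6 := by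
    rw [← Real.rpow_mul_natCast (by positivity), Real.rpow_sub (by positivity), Real.rpow_one]
    congr 2
    push_cast
    ring
  have hz := (zz_le η x).trans (Real.rpow_le_rpow_of_exponent_le (by linarith) hη')
  have hs := hl.supp
  rw [e3, e6] at hI
  generalize (x : ℝ) ^ (θ / 3) = y at *
  have hy : 0 < y := by linarith
  have key : ∀ r : ℕ, 1 ≤ r → (r : ℝ) ≤ 2 * y → |nuSum η x l f r| ≤ x / (r * Real.log x ^ 2) := by
    intro r hr hr'
    have hr0 : (0 : ℝ) < r := by exact_mod_cast hr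
    refine (abs_sum_le (zz η x) hy.le (B := x / y ^ 6) (by positivity) _ fun s hs' h0 => ?_).trans ?_
    · have a := (hs s (left_ne_zero_of_mul h0)).2
      refine ⟨a, ?_⟩
      rw [abs_mul]
      refine (mul_le_of_le_one_left (abs_nonneg _) (hl.abs_le s)).trans
        (hI _ (Nat.mul_pos hr (pd_pos hs')) ?_)
      push_cast
      calc (r : ℝ) * pd s ≤ 2 * y * y := by gcongr
        _ ≤ y * y * y := by gcongr
        _ = _ := by ring
    · have a : Real.log x ≤ y ^ 2 / 2 := by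
        rw [div_le_iff₀ hθ] at y6
        refine hL'.trans ?_
        rw [div_le_iff₀ hγ]
        nlinarith
      have b : r * Real.log x ^ 2 ≤ y ^ 5 := by
        calc r * Real.log x ^ 2 ≤ 2 * y * (y ^ 2 / 2) ^ 2 := by gcongr
          _ = y ^ 5 / 2 := by ring
          _ ≤ _ := half_le_self (by positivity)
      calc y * (x / y ^ 6) = x / y ^ 5 := by field_simp
        _ ≤ _ := by gcongr
  refine H f hf hE (by simpa using key 1 le_rfl (by push_cast; linarith)) fun r hr _ hr' =>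
    key r hr.pos ?_
  have a : (r : ℝ) ≤ 2 * zz η x := by exact_mod_cast hr'
  linarith

end Crest.Agent.R26
end

-- ▼ part PVc/R26/MainAP
section

/-! Row 26: type I functions in a class. -/

set_option autoImplicit false

namespace Crest.Agent.R26

open Finset Filter
open Crest.Agent.R5 (pr pd ee nit)

namespace MainAP

theorem cnt (x b : ℕ) {k d : ℕ} (hk : 0 < k) (hd : 0 < d) (hco : d.Coprime k) :
    |∑ N ∈ (Ioc x (2 * x)).filter (fun N => N ≡ b [MOD k]),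
      ((if d ∣ N - 1 then 1 else 0) - 1 / (d : ℝ))| ≤ 2 := by
  obtain ⟨β, h1, h2⟩ := Nat.chineseRemainder hco 1 b
  have h3 : ((Ioc x (2 * x)).filter (fun N => N ≡ b [MOD k])).filter (fun N => d ∣ N - 1) =
      (Ioc x (2 * x)).filter (fun N => N ≡ β [MOD d * k]) := by
    rw [filter_filter]
    refine filter_congr fun N hN => ?_
    rw [← Nat.modEq_and_modEq_iff_modEq_mul hco, and_comm,
      ← Nat.modEq_iff_dvd' (by have := (mem_Ioc.1 hN).1; omega)]
    exact and_congr ⟨fun h => h.symm.trans h1.symm, fun h => (h.trans h1).symm⟩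
      ⟨fun h => h.trans h2.symm, fun h => h.trans h2⟩
  have h4 := abs_le.1 (R5.Point.count x x β (Nat.mul_pos hd hk))
  have h5 := abs_le.1 (R5.Point.count x x b hk)
  have hd' : (1 : ℝ) ≤ d := by exact_mod_cast hd
  have h6 : 1 / (d : ℝ) ≤ 1 := (div_le_one (by linarith)).2 hd'
  have h7 : 0 < 1 / (d : ℝ) := by positivity
  rw [sum_sub_distrib, sum_boole, h3, sum_const, nsmul_eq_mul, two_mul]
  have e : (x : ℝ) / (d * k : ℕ) = x / k * (1 / d) := by
    push_cast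
    ring
  rw [e] at h4
  rw [abs_le]
  constructor <;> nlinarith [h4.1, h4.2, h5.1, h5.2]

/-- the function in the class -/
noncomputable def g (M r : ℕ) (R : Finset ℕ) (c : ℕ → ℝ) (n : ℕ) : ℝ :=
  if n + 1 ≡ r [MOD M] then R5.gI R c n else 0

theorem typeI {M r x e : ℕ} {R : Finset ℕ} {c : ℕ → ℝ} (hM : 1 ≤ M) (he : 1 ≤ e)
    (hc : ∀ d, |c d| ≤ 1) (hR : ∀ d ∈ R, 1 ≤ d ∧ d.Coprime e ∧ d.Coprime M) :
    |∑ N ∈ (Ioc x (2 * x)).filter (fun N => e ∣ N), g M r R c (N - 1)| ≤ 2 * R.card := by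
  have h1 : ∑ N ∈ (Ioc x (2 * x)).filter (fun N => e ∣ N), g M r R c (N - 1) =
      ∑ N ∈ (Ioc x (2 * x)).filter (fun N => e ∣ N ∧ N ≡ r [MOD M]), R5.gI R c (N - 1) := by
    rw [← filter_filter, sum_filter (fun N => N ≡ r [MOD M])]
    refine sum_congr rfl fun N hN => ?_
    rw [g, Nat.sub_add_cancel (by have := (mem_Ioc.1 (mem_filter.1 hN).1).1; omega)]
  rw [h1]
  by_cases h : ∃ b, e ∣ b ∧ b ≡ r [MOD M]
  · obtain ⟨b, h2, h3⟩ := h
    have h4 : ∀ N, e ∣ N ∧ N ≡ r [MOD M] ↔ N ≡ b [MOD Nat.lcm e M] := fun N =>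
      ⟨fun h => Nat.mod_lcm ((Nat.modEq_zero_iff_dvd.2 h.1).trans (Nat.modEq_zero_iff_dvd.2 h2).symm)
        (h.2.trans h3.symm), fun h => ⟨((h.of_dvd (Nat.dvd_lcm_left e M)).dvd_iff dvd_rfl).2 h2,
          (h.of_dvd (Nat.dvd_lcm_right e M)).trans h3⟩⟩
    simp only [h4, R5.gI]
    rw [sum_comm, mul_comm (2 : ℝ), ← nsmul_eq_mul]
    refine (abs_sum_le_sum_abs _ _).trans (sum_le_card_nsmul _ _ _ fun d hd => ?_)
    rw [← mul_sum, abs_mul]
    exact (mul_le_of_le_one_left (abs_nonneg _) (hc d)).trans (cnt x b (Nat.lcm_pos he hM) (hR d hd).1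
      (((hR d hd).2.1.mul_right (hR d hd).2.2).coprime_dvd_right (Nat.lcm_dvd_mul e M)))
  · rw [filter_eq_empty_iff.2 fun N _ hN => h ⟨N, hN⟩, sum_empty, abs_zero]
    positivity

theorem g_mul {M r p t : ℕ} {R : Finset ℕ} (c : ℕ → ℝ) (hp : p ≡ 1 [MOD M])
    (hR : ∀ d ∈ R, d.Coprime p) : g M r R c (p * t) = g M r R c t := by
  have h1 : p * t + 1 ≡ t + 1 [MOD M] := by simpa using (hp.mul_right t).add_right 1
  rw [g, g, R5.gI, R5.gI, if_congr ⟨fun h => h1.symm.trans h, fun h => h1.trans h⟩ rfl rfl,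
    sum_congr rfl fun d hd => by rw [if_congr (hR d hd).dvd_mul_left rfl rfl]]

theorem abs_g_le {M r X n : ℕ} {κ B : ℝ} {R : Finset ℕ} {c : ℕ → ℝ} (h : R5.TypeI X κ B R c)
    (h1 : 1 ≤ n) (h2 : n ≤ X ^ 2) : |g M r R c n| ≤ 2 * |B| + 1 := by
  rw [g]
  split_ifs
  · refine (abs_sum_le_sum_abs _ _).trans ((sum_le_sum (g := fun d =>
      (if d ∣ n then 1 else 0) + 1 / (d : ℝ)) fun d _ => ?_).trans ?_)
    · rw [abs_mul]
      refine (mul_le_of_le_one_left (abs_nonneg _) (h.abs_le d)).trans ((abs_sub _ _).trans_eq ?_)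
      rw [abs_of_nonneg (by positivity), abs_of_nonneg (by positivity)]
    · rw [sum_add_distrib, sum_boole]
      linarith [h.card_le n h1 h2, h.sum_le, le_abs_self B]
  · rw [abs_zero]
    positivity

/-- dyadic decomposition -/
theorem dyadic {s : ℕ → ℝ} {X : ℕ} {D a Y₀ : ℝ} (hD0 : 0 ≤ D) (ha : 0 ≤ a) (hY : 1 ≤ Y₀)
    (hD : ∀ p, p.Prime → p ≤ X → |s p| ≤ D) (haD : D ≤ a * Y₀)
    (h : ∀ x : ℕ, Y₀ ≤ x → 2 * x ≤ X → |Sp x s| ≤ a * x) :
    ∀ Y ≤ X, |∑ p ∈ (Icc 1 Y).filter Nat.Prime, s p| ≤ 2 * a * Y + 4 * Y₀ * D := by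
  have triv : ∀ T : Finset ℕ, (∀ p ∈ T, p ≤ X) → |∑ p ∈ T.filter Nat.Prime, s p| ≤ T.card * D :=
    fun T hT => by
      refine (abs_sum_le_sum_abs _ _).trans ((sum_le_card_nsmul _ _ D fun p hp =>
        hD p (mem_filter.1 hp).2 (hT p (mem_filter.1 hp).1)).trans ?_)
      rw [nsmul_eq_mul]
      gcongr
      exact filter_subset _ _
  intro Y
  induction Y using Nat.strong_induction_on with
  | _ Y ih =>
    intro hYX
    obtain ⟨x, hx1, hx2⟩ : ∃ x, 2 * x ≤ Y ∧ Y ≤ 2 * x + 1 := ⟨Y / 2, by omega, by omega⟩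
    have hx1' : 2 * (x : ℝ) ≤ Y := by exact_mod_cast hx1
    have hx2' : (Y : ℝ) ≤ 2 * x + 1 := by exact_mod_cast hx2
    rcases le_or_gt Y₀ x with h1 | h1
    · have hx0 : 1 ≤ x := by exact_mod_cast hY.trans h1
      have h2 := ih x (by omega) (by omega)
      have h3 := h x h1 (by omega)
      have h4 := triv (Ioc (2 * x) Y) fun p hp => (mem_Ioc.1 hp).2.trans hYX
      have h5 : ((Ioc (2 * x) Y).card : ℝ) ≤ 1 := by
        rw [Nat.card_Ioc]
        exact_mod_cast (by omega : Y - 2 * x ≤ 1)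
      have e : ∑ p ∈ (Icc 1 Y).filter Nat.Prime, s p = ∑ p ∈ (Icc 1 x).filter Nat.Prime, s p +
          Sp x s + ∑ p ∈ (Ioc (2 * x) Y).filter Nat.Prime, s p := by
        simp only [Sp, sum_filter]
        exact ((congrArg (· + _) (sum_Ioc_consecutive _ (Nat.zero_le x) (by omega : x ≤ 2 * x))).trans
          (sum_Ioc_consecutive _ (Nat.zero_le (2 * x)) hx1)).symm
      rw [e]
      refine (abs_add_three _ _ _).trans ?_
      nlinarith [mul_le_mul_of_nonneg_left h1 ha, mul_le_mul_of_nonneg_left hx1' ha,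
        mul_le_mul_of_nonneg_right h5 hD0]
    · have h2 := triv (Icc 1 Y) fun p hp => (mem_Icc.1 hp).2.trans hYX
      rw [Nat.card_Icc, Nat.add_sub_cancel] at h2
      nlinarith [mul_le_mul_of_nonneg_right (by linarith : (Y : ℝ) ≤ 4 * Y₀) hD0,
        mul_nonneg ha (Nat.cast_nonneg (α := ℝ) Y)]

theorem ev_log {y : ℝ} (hy : 0 < y) {K : ℝ} (hK : 0 < K) :
    ∀ᶠ X : ℕ in atTop, K * Real.log X ≤ (X : ℝ) ^ y := by
  have h := (isLittleO_log_rpow_atTop hy).def (c := K⁻¹) (by positivity)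
  filter_upwards [tendsto_natCast_atTop_atTop.eventually h] with X h1
  rw [Real.norm_of_nonneg (Real.log_natCast_nonneg X), Real.norm_of_nonneg (by positivity)] at h1
  exact (le_inv_mul_iff₀ hK).1 h1

theorem ap (h : MainIStmt) : R27.MainAP := by
  intro M r κ B η hM hκ hκ1 hη
  obtain ⟨D, hD⟩ : ∃ D : ℝ, D = 2 * |B| + 1 := ⟨_, rfl⟩
  have hD1 : 1 ≤ D := by rw [hD]; linarith [abs_nonneg B]
  obtain ⟨x₀, h0⟩ := eventually_atTop.1 (h M (κ / 8) (η / (8 * D)) hM (by positivity) (by positivity))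
  filter_upwards [R5.Point.ev_rpow (y := 1 / 2) (by norm_num) x₀,
    R5.Point.ev_rpow hκ M, R5.Point.ev_rpow (y := κ / 2) (by positivity) 2,
    ev_log (y := 1 / 2) (by norm_num) (K := 4 * D / η) (by positivity),
    ev_log (y := κ / 4) (by positivity) (K := 8 * D / η) (by positivity), eventually_ge_atTop 2]
    with X a1 a2 a3 a4 a5 a6 R c hT hR
  have hX : (1 : ℝ) < X := by exact_mod_cast a6
  have hl := Real.log_pos hX
  have b1 : (X : ℝ) ^ (1 / 2 : ℝ) ≤ (X : ℝ) ^ (1 - κ / 4) :=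
    Real.rpow_le_rpow_of_exponent_le hX.le (by linarith)
  have b2 : ∀ {d n : ℕ}, d ∈ R → n ≠ 0 → (n : ℝ) ≤ (X : ℝ) ^ κ → d.Coprime n := fun hd h1 h2 =>
    Nat.coprime_of_dvd fun p hp hpd hpn => absurd (hR _ hd p hp hpd)
      (not_lt.2 (le_trans (by exact_mod_cast Nat.le_of_dvd (Nat.pos_of_ne_zero h1) hpn) h2))
  have b3 : (R.card : ℝ) ≤ (X : ℝ) ^ (1 - κ) := by
    refine le_trans ?_ (Nat.floor_le (by positivity))
    have := card_le_card (s := R) (t := Icc 1 ⌊(X : ℝ) ^ (1 - κ)⌋₊) fun d hd =>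
      mem_Icc.2 ⟨hT.pos d hd, Nat.le_floor (hT.le d hd)⟩
    rw [Nat.card_Icc, Nat.add_sub_cancel] at this
    exact_mod_cast this
  have b4 : ∀ n, 1 ≤ n → n ≤ X → |g M r R c n| ≤ D := fun n h1 h2 =>
    hD ▸ abs_g_le hT h1 (h2.trans (Nat.le_self_pow two_ne_zero X))
  have key := dyadic (s := fun p => g M r R c (p - 1)) (X := X) (D := D)
    (a := η / (4 * Real.log X)) (Y₀ := (X : ℝ) ^ (1 - κ / 4)) (by linarith) (by positivity)
    (Real.one_le_rpow hX.le (by linarith))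
    (fun p hp h1 => b4 _ (by have := hp.two_le; omega) (by omega))
    (by
      rw [div_mul_eq_mul_div, div_le_iff₀ hη] at a4
      rw [div_mul_eq_mul_div, le_div_iff₀ (by positivity)]
      nlinarith)
    (fun x h1 h2 => ?_) X le_rfl
  · have e : ∑ p ∈ (Icc 1 X).filter (fun p => p.Prime ∧ p ≡ r [MOD M]), R5.gI R c (p - 1) =
        ∑ p ∈ (Icc 1 X).filter Nat.Prime, g M r R c (p - 1) := by
      rw [← filter_filter, sum_filter (fun N => N ≡ r [MOD M])]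
      refine sum_congr rfl fun N hN => ?_
      rw [g, Nat.sub_add_cancel (mem_Icc.1 (mem_filter.1 hN).1).1]
    have c1 : (X : ℝ) ^ (1 - κ / 4) * (X : ℝ) ^ (κ / 4) = X := by
      rw [← Real.rpow_add (by linarith), sub_add_cancel, Real.rpow_one]
    rw [div_mul_eq_mul_div, div_le_iff₀ hη] at a5
    have c2 : 4 * (X : ℝ) ^ (1 - κ / 4) * D ≤ η * X / Real.log X / 2 := by
      rw [div_div, le_div_iff₀ (by positivity)]
      nlinarith [Real.rpow_pos_of_pos (by linarith : (0 : ℝ) < X) (1 - κ / 4)]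
    have c3 : 2 * (η / (4 * Real.log X)) * X = η * X / Real.log X / 2 := by
      field_simp
      ring
    rw [e]
    linarith
  · have hx1 : (1 : ℝ) ≤ x := (Real.one_le_rpow hX.le (by linarith)).trans h1
    have hx1' : 1 ≤ x := by exact_mod_cast hx1
    have hxX : (x : ℝ) ≤ X := by exact_mod_cast (by omega : x ≤ X)
    have c0 : ∀ T : Finset ℕ, T ⊆ Ioc x (2 * x) →
        ∑ N ∈ T, max (-1) (min 1 (g M r R c (N - 1) / D)) = (∑ N ∈ T, g M r R c (N - 1)) / D :=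
      fun T hT' => by
        rw [sum_div]
        refine sum_congr rfl fun N hN => ?_
        have c1 := mem_Ioc.1 (hT' hN)
        have c2 := abs_le.1 (b4 (N - 1) (by omega) (by omega))
        rw [min_eq_right ((div_le_one (by linarith)).2 c2.2),
          max_eq_right ((le_div_iff₀ (by linarith)).2 (by linarith [c2.1]))]
    have c1 := h0 x (by exact_mod_cast a1.trans (b1.trans h1))
      (fun n => max (-1) (min 1 (g M r R c n / D)))
      (fun n => abs_le.2 ⟨le_max_left _ _, max_le (by norm_num) (min_le_left _ _)⟩)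
      (fun p p' t hp hp' e1 e2 _ _ e3 e4 _ _ => by
        have d1 : ∀ q : ℕ, q.Prime → (q : ℝ) ≤ Real.exp (√(Real.log x)) → ∀ d ∈ R, d.Coprime q :=
          fun q hq e d hd => ((Nat.Prime.coprime_iff_not_dvd hq).2 fun hqd =>
            absurd (hT.rough d hd q hq hqd) (not_lt.2 (e.trans (by gcongr)))).symm
        simp only [g_mul c e1 (d1 p hp e3), g_mul c e2 (d1 p' hp' e4)])
      (fun e e1 e2 => by
        rw [c0 _ (filter_subset _ _), abs_div, abs_of_pos (by linarith : 0 < D)]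
        refine (div_le_self (abs_nonneg _) hD1).trans ((typeI hM e1 hT.abs_le fun d hd =>
          ⟨hT.pos d hd, b2 hd (by omega) (e2.trans ?_), b2 hd (by omega) a2⟩).trans ?_)
        · exact (Real.rpow_le_rpow (by linarith) hxX (by positivity)).trans
            (Real.rpow_le_rpow_of_exponent_le hX.le (by linarith))
        · calc 2 * (R.card : ℝ) ≤ (X : ℝ) ^ (κ / 2) * (X : ℝ) ^ (1 - κ) := by gcongr
            _ = (X : ℝ) ^ (κ / 2 + (1 - κ)) := (Real.rpow_add (by linarith) _ _).symm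
            _ ≤ (X : ℝ) ^ ((1 - κ / 4) * (1 - 2 * (κ / 8))) :=
              Real.rpow_le_rpow_of_exponent_le hX.le (by nlinarith)
            _ = ((X : ℝ) ^ (1 - κ / 4)) ^ (1 - 2 * (κ / 8)) := Real.rpow_mul (by linarith) _ _
            _ ≤ _ := Real.rpow_le_rpow (by positivity) h1 (by linarith))
    have c2 : Real.log X / 2 ≤ Real.log x := by
      have := Real.log_le_log (by positivity) (b1.trans h1)
      rw [Real.log_rpow (by linarith)] at this
      linarith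
    rw [Sp, c0 _ (filter_subset _ _), abs_div, abs_of_pos (by linarith : 0 < D),
      div_le_iff₀ (by linarith)] at c1
    refine c1.trans ?_
    calc η / (8 * D) * x / Real.log x * D ≤ η / (8 * D) * x / (Real.log X / 2) * D := by gcongr
      _ = _ := by
        field_simp
        ring

end MainAP

theorem mainAP : MainIStmt → R27.MainAP ∧ MainStmt := by
  intro h
  refine ⟨MainAP.ap h, fun κ B η h1 h2 h3 => ?_⟩
  simpa only [Nat.modEq_one, and_true] using MainAP.ap h 1 0 κ B η le_rfl h1 h2 h3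

end Crest.Agent.R26
end

-- ▼ part PVc/R26/S36AuxA
section

/-! Row 26, parity of shifted primes: the test function and its arithmetic. -/

set_option autoImplicit false

namespace Crest.Agent.R26.S36

open Finset
open ArithmeticFunction (cardFactors)

/-- squarefree, even number of prime factors, one of them larger than `y` -/
def cond (y n : ℕ) : Prop :=
  Squarefree n ∧ Even (cardFactors n) ∧ ∃ q, q.Prime ∧ y < q ∧ q ∣ n

open Classical in
/-- the test function -/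
noncomputable def F (y n : ℕ) : ℝ := if cond y n then 1 else 0

/-- the cofactors -/
def E (K : ℕ) : Finset ℕ := (Icc 1 K).filter fun e => Squarefree e ∧ Odd (cardFactors e)

/-- the range of the large prime -/
def I (x y e : ℕ) : Finset ℕ := Ioc (max y ((x - 1) / e)) ((2 * x - 1) / e)

/-- number of large primes -/
def Pi (x y e : ℕ) : ℕ := ((I x y e).filter Nat.Prime).card

theorem F01 (y n : ℕ) : 0 ≤ F y n ∧ F y n ≤ 1 := by
  unfold F; split_ifs <;> norm_num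

theorem cf_mul {p t : ℕ} (hp : p.Prime) (ht : t ≠ 0) :
    cardFactors (p * t) = cardFactors t + 1 := by
  rw [ArithmeticFunction.cardFactors_mul hp.ne_zero ht,
    ArithmeticFunction.cardFactors_apply_prime hp, add_comm]

theorem sqf_mul {p t : ℕ} (hp : p.Prime) (h : ¬ p ∣ t) : Squarefree (p * t) ↔ Squarefree t := by
  rw [Nat.squarefree_mul ((Nat.Prime.coprime_iff_not_dvd hp).2 h)]
  exact ⟨fun h => h.2, fun h => ⟨hp.squarefree, h⟩⟩

theorem cond_mul {y p t : ℕ} (hp : p.Prime) (hy : p ≤ y) (h : ¬ p ∣ t) :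
    cond y (p * t) ↔ Squarefree t ∧ Even (cardFactors t + 1) ∧ ∃ q, q.Prime ∧ y < q ∧ q ∣ t := by
  have ht : t ≠ 0 := by rintro rfl; exact h (dvd_zero _)
  unfold cond
  rw [sqf_mul hp h, cf_mul hp ht]
  refine and_congr_right fun _ => and_congr_right fun _ => exists_congr fun q => ?_
  refine and_congr_right fun hq => and_congr_right fun hyq => ?_
  rw [hq.dvd_mul]
  refine ⟨fun h => h.resolve_left fun h => ?_, Or.inr⟩
  have := (Nat.prime_dvd_prime_iff_eq hq hp).1 h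
  omega

theorem F_exch {y p p' t : ℕ} (hp : p.Prime) (hp' : p'.Prime) (hy : p ≤ y) (hy' : p' ≤ y)
    (h : ¬ p ∣ t) (h' : ¬ p' ∣ t) : F y (p * t) = F y (p' * t) := by
  unfold F
  rw [cond_mul hp hy h, cond_mul hp' hy' h']

theorem mem_I {x y e q : ℕ} (hx : 1 ≤ x) (he : 1 ≤ e) :
    q ∈ I x y e ↔ y < q ∧ x < e * q + 1 ∧ e * q + 1 ≤ 2 * x := by
  unfold I
  rw [mem_Ioc, max_lt_iff, Nat.div_lt_iff_lt_mul he, Nat.le_div_iff_mul_le he, mul_comm q e]
  omega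

/-- the decomposition along the large prime -/
theorem decomp {x y K : ℕ} (hx : 1 ≤ x) (hK : 2 * x ≤ K * (y + 1)) (hKy : K ≤ y) (D : ℕ) :
    ∑ N ∈ (Ioc x (2 * x)).filter (fun N => D ∣ N), F y (N - 1) =
      ∑ e ∈ E K, (((I x y e).filter (fun q => q.Prime ∧ D ∣ e * q + 1)).card : ℝ) := by
  classical
  unfold F
  rw [sum_boole, ← Nat.cast_sum, ← card_sigma]
  congr 1
  symm
  refine card_bij (fun a _ => a.1 * a.2 + 1) ?_ ?_ ?_
  · rintro ⟨e, q⟩ h
    simp only [mem_sigma, E, mem_filter, mem_Icc] at h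
    obtain ⟨⟨⟨he1, heK⟩, hs, ho⟩, hI, hq, hD⟩ := h
    rw [mem_I hx he1] at hI
    have hn : ¬ q ∣ e := fun h => by have := Nat.le_of_dvd he1 h; omega
    simp only [mem_filter, mem_Ioc, Nat.add_sub_cancel]
    refine ⟨⟨⟨hI.2.1, hI.2.2⟩, hD⟩, ?_, ?_, q, hq, hI.1, dvd_mul_left _ _⟩
    · rw [mul_comm, sqf_mul hq hn]; exact hs
    · rw [mul_comm, cf_mul hq (by omega)]; exact ho.add_one
  · rintro ⟨e, q⟩ h ⟨e', q'⟩ h' heq
    simp only [mem_sigma, E, mem_filter, mem_Icc] at h h'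
    obtain ⟨⟨⟨he1, heK⟩, -, -⟩, hI, hq, -⟩ := h
    obtain ⟨⟨⟨he1', heK'⟩, -, -⟩, hI', hq', -⟩ := h'
    rw [mem_I hx he1] at hI
    simp only [Nat.add_right_cancel_iff] at heq
    have h1 : q ∣ e' * q' := heq ▸ dvd_mul_left _ _
    have hn : ¬ q ∣ e' := fun h => by have := Nat.le_of_dvd he1' h; omega
    have h2 : q = q' := (Nat.prime_dvd_prime_iff_eq hq hq').1 ((hq.dvd_mul.1 h1).resolve_left hn)
    subst h2
    have h3 : e = e' := Nat.eq_of_mul_eq_mul_right hq.pos heq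
    subst h3
    rfl
  · intro N hN
    simp only [mem_filter, mem_Ioc] at hN
    obtain ⟨⟨⟨h1, h2⟩, hD⟩, hs, hev, q, hq, hyq, e, he⟩ := hN
    have he1 : 1 ≤ e := by
      rcases Nat.eq_zero_or_pos e with rfl | h
      · omega
      · exact h
    have hN : N = e * q + 1 := by rw [mul_comm]; omega
    refine ⟨⟨e, q⟩, ?_, hN.symm⟩
    simp only [mem_sigma, E, mem_filter, mem_Icc]
    rw [he] at hs hev
    refine ⟨⟨⟨he1, ?_⟩, hs.of_mul_right, ?_⟩, (mem_I hx he1).2 ⟨hyq, by omega, by omega⟩, hq,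
      hN ▸ hD⟩
    · by_contra hc
      have : K * (y + 1) ≤ e * q := Nat.mul_le_mul (by omega) (by omega)
      omega
    · rw [cf_mul hq (by omega), Nat.even_add_one, Nat.not_even_iff_odd] at hev
      exact hev

/-- primes in the class `e q ≡ -1 (D)` -/
theorem cnt_ap {δ C : ℝ} (hδ : δ ≤ 1 / 4) (hC : 0 < C)
    (H : ∀ r a y₁ y₂ : ℕ, 1 ≤ r → Nat.Coprime a r → y₁ ≤ y₂ →
      |(((Ioc y₁ y₂).filter (fun p => p.Prime ∧ p ≡ a [MOD r])).card : ℝ) -
        ((Ioc y₁ y₂).filter Nat.Prime).card / (r.totient : ℝ)| ≤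
        C * (y₂ : ℝ) ^ (1 - δ) * Real.log (2 * r))
    (x y e D : ℕ) (hD : 1 ≤ D) :
    |(((I x y e).filter (fun q => q.Prime ∧ D ∣ e * q + 1)).card : ℝ) -
      (if Nat.Coprime e D then (Pi x y e : ℝ) / D.totient else 0)| ≤
      C * (2 * x : ℝ) ^ (1 - δ) * Real.log (2 * D) := by
  have hlog : 0 ≤ Real.log (2 * D) := Real.log_nonneg (by
    have : (1 : ℝ) ≤ D := by exact_mod_cast hD
    linarith)
  have h0 : 0 ≤ C * (2 * x : ℝ) ^ (1 - δ) * Real.log (2 * D) := by positivity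
  split_ifs with hc
  · obtain ⟨a, -, ha⟩ := Nat.exists_mul_mod_eq_of_coprime (D - 1) hc (by omega)
    have ha' : D ∣ e * a + 1 := by
      have h1 : e * a + 1 ≡ D - 1 + 1 [MOD D] := Nat.ModEq.add_right 1 ha
      rw [Nat.sub_add_cancel hD] at h1
      exact (h1.dvd_iff dvd_rfl).2 dvd_rfl
    have hca : Nat.Coprime a D := by
      rw [Nat.coprime_iff_gcd_eq_one]
      have h1 : Nat.gcd a D ∣ e * a := (Nat.gcd_dvd_left a D).mul_left e
      have h2 : Nat.gcd a D ∣ e * a + 1 := (Nat.gcd_dvd_right a D).trans ha'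
      exact Nat.dvd_one.1 ((Nat.dvd_add_right h1).1 h2)
    have hiff : ∀ q, D ∣ e * q + 1 ↔ q ≡ a [MOD D] := by
      intro q
      constructor
      · intro h
        have h1 : e * q + 1 ≡ e * a + 1 [MOD D] :=
          ((Nat.modEq_zero_iff_dvd).2 h).trans ((Nat.modEq_zero_iff_dvd).2 ha').symm
        exact Nat.ModEq.cancel_left_of_coprime hc.symm (Nat.ModEq.add_right_cancel' 1 h1)
      · intro h
        exact (((h.mul_left e).add_right 1).dvd_iff dvd_rfl).2 ha'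
    simp only [hiff]
    unfold Pi I
    rcases le_or_gt (max y ((x - 1) / e)) ((2 * x - 1) / e) with hle | hlt
    · refine (H D a _ _ hD hca hle).trans ?_
      have h1 : (((2 * x - 1) / e : ℕ) : ℝ) ≤ 2 * x := by
        have : (2 * x - 1) / e ≤ 2 * x := (Nat.div_le_self _ _).trans (Nat.sub_le _ _)
        exact_mod_cast this
      have h2 : (((2 * x - 1) / e : ℕ) : ℝ) ^ (1 - δ) ≤ (2 * x : ℝ) ^ (1 - δ) :=
        Real.rpow_le_rpow (Nat.cast_nonneg _) h1 (by linarith)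
      gcongr
    · rw [Ioc_eq_empty (not_lt.2 hlt.le)]
      simpa using h0
  · have : (I x y e).filter (fun q => q.Prime ∧ D ∣ e * q + 1) = ∅ := by
      refine filter_eq_empty_iff.2 fun q _ h => hc ?_
      rw [Nat.coprime_iff_gcd_eq_one]
      have h1 : Nat.gcd e D ∣ e * q := (Nat.gcd_dvd_left e D).mul_right q
      have h2 : Nat.gcd e D ∣ e * q + 1 := (Nat.gcd_dvd_right e D).trans h.2
      exact Nat.dvd_one.1 ((Nat.dvd_add_right h1).1 h2)
    rw [this]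
    simpa using h0

theorem Pi_le (x y e : ℕ) : (Pi x y e : ℝ) ≤ 2 * x / e := by
  have h1 : Pi x y e ≤ (2 * x) / e := by
    unfold Pi I
    refine (card_filter_le _ _).trans ?_
    rw [Nat.card_Ioc]
    exact (Nat.sub_le _ _).trans (Nat.div_le_div_right (Nat.sub_le _ _))
  have h2 : (((2 * x) / e : ℕ) : ℝ) ≤ ((2 * x : ℕ) : ℝ) / e := Nat.cast_div_le
  have h3 : (Pi x y e : ℝ) ≤ (((2 * x) / e : ℕ) : ℝ) := by exact_mod_cast h1
  push_cast at h2
  linarith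

theorem Pi_ge {x y e : ℕ} (he : 1 ≤ e) (h : e * y ≤ x - 1) :
    ((Ioc ((x - 1) / e) (2 * ((x - 1) / e))).filter (fun p => p.Prime ∧ p ≡ 1 [MOD 1])).card ≤
      Pi x y e := by
  unfold Pi I
  have h1 : y ≤ (x - 1) / e := (Nat.le_div_iff_mul_le he).2 (by rw [mul_comm]; exact h)
  rw [max_eq_right h1]
  refine card_le_card fun p hp => ?_
  simp only [mem_filter, mem_Ioc] at hp ⊢
  refine ⟨⟨hp.1.1, hp.1.2.trans ?_⟩, hp.2.1⟩
  rw [Nat.le_div_iff_mul_le he]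
  have := Nat.div_mul_le_self (x - 1) e
  rw [mul_assoc]
  omega

/-! ### harmonic sums -/

theorem harm_le (K : ℕ) : ∑ k ∈ Icc 1 K, 1 / (k : ℝ) ≤ 1 + Real.log K := by
  have := harmonic_le_one_add_log K
  simp only [harmonic_eq_sum_Icc, Rat.cast_sum, Rat.cast_inv, Rat.cast_natCast] at this
  simpa only [one_div] using this

theorem harm_ge (K : ℕ) : Real.log (K + 1) ≤ ∑ k ∈ Icc 1 K, 1 / (k : ℝ) := by
  have := log_add_one_le_harmonic K
  simp only [harmonic_eq_sum_Icc, Rat.cast_sum, Rat.cast_inv, Rat.cast_natCast] at this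
  push_cast at this
  simpa only [one_div] using this

theorem harm_dvd (K : ℕ) {r : ℕ} (hr : 1 ≤ r) :
    ∑ e ∈ (E K).filter (fun e => r ∣ e), 1 / (e : ℝ) ≤ (1 + Real.log K) / r := by
  have h1 : (E K).filter (fun e => r ∣ e) ⊆ (Icc 1 K).image (fun k => r * k) := by
    intro e he
    simp only [E, mem_filter, mem_Icc] at he
    obtain ⟨⟨⟨h1, h2⟩, -⟩, k, rfl⟩ := he
    refine mem_image.2 ⟨k, mem_Icc.2 ⟨?_, ?_⟩, rfl⟩
    · rcases Nat.eq_zero_or_pos k with rfl | h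
      · omega
      · exact h
    · exact (Nat.le_mul_of_pos_left k hr).trans h2
  refine (sum_le_sum_of_subset_of_nonneg h1 fun _ _ _ => by positivity).trans ?_
  rw [sum_image (fun a _ b _ h => Nat.eq_of_mul_eq_mul_left hr h)]
  have hr' : (0 : ℝ) < r := by exact_mod_cast hr
  rw [le_div_iff₀ hr', sum_mul]
  refine le_trans (le_of_eq (sum_congr rfl fun k hk => ?_)) (harm_le K)
  push_cast
  field_simp

theorem toggle {n : ℕ} (hn : 1 ≤ n) : ∃ k t e : ℕ, 1 ≤ k ∧ 1 ≤ t ∧ t ≤ 18 ∧ 1 ≤ e ∧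
    Squarefree e ∧ Odd (cardFactors e) ∧ 2 ∣ e ∧ 6 * n = k ^ 2 * t * e := by
  obtain ⟨a, k, ha, hk, rfl, hs⟩ := Nat.sq_mul_squarefree_of_pos hn
  obtain ⟨b, u, hb, hbs, hb2, hu1, hu2, hab⟩ : ∃ b u : ℕ, 1 ≤ b ∧ Squarefree b ∧ 2 ∣ b ∧ 1 ≤ u ∧
      u ≤ 2 ∧ 2 * a = u * b := by
    by_cases h : 2 ∣ a
    · exact ⟨a, 2, ha, hs, h, by norm_num, le_rfl, rfl⟩
    · exact ⟨2 * a, 1, by omega, (sqf_mul Nat.prime_two h).2 hs, dvd_mul_right _ _, le_rfl,
        by norm_num, by ring⟩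
  have h6 : 6 * (k ^ 2 * a) = k ^ 2 * (3 * u) * b := by
    calc 6 * (k ^ 2 * a) = k ^ 2 * 3 * (2 * a) := by ring
      _ = _ := by rw [hab]; ring
  rcases Nat.even_or_odd (cardFactors b) with hev | hodd
  · by_cases h3 : 3 ∣ b
    · obtain ⟨e, rfl⟩ := h3
      have he : e ≠ 0 := by rintro rfl; omega
      rw [cf_mul Nat.prime_three he, Nat.even_add_one, Nat.not_even_iff_odd] at hev
      refine ⟨k, 9 * u, e, hk, by omega, by omega, by omega, hbs.of_mul_right, hev, by omega, ?_⟩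
      rw [h6]; ring
    · refine ⟨k, u, 3 * b, hk, hu1, by omega, by omega, (sqf_mul Nat.prime_three h3).2 hbs, ?_,
        by omega, ?_⟩
      · rw [cf_mul Nat.prime_three (by omega)]; exact hev.add_one
      · rw [h6]; ring
  · exact ⟨k, 3 * u, b, hk, by omega, by omega, hb, hbs, hodd, hb2, h6⟩

theorem inv_sq_le (M : ℕ) : ∑ k ∈ Icc 1 M, 1 / (k : ℝ) ^ 2 ≤ 2 := by
  have := sum_Ioo_inv_sq_le (α := ℝ) 0 (M + 1)
  have e : Ioo 0 (M + 1) = Icc 1 M := by ext k; simp only [mem_Ioo, mem_Icc]; omega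
  rw [e] at this
  simpa only [one_div, Nat.cast_zero, zero_add, div_one] using this

/-- the even cofactors have positive logarithmic density -/
theorem harm_even (Y : ℕ) :
    Real.log (Y + 1) ≤ 216 * ∑ e ∈ (E (6 * Y)).filter (fun e => 2 ∣ e), 1 / (e : ℝ) := by
  refine (harm_ge Y).trans ?_
  set S := (E (6 * Y)).filter (fun e => 2 ∣ e) with hS
  set T : Finset (ℕ × ℕ × ℕ) := Icc 1 (6 * Y) ×ˢ Icc 1 18 ×ˢ S with hT
  have hsub : (Icc 1 Y).image (fun n => 6 * n) ⊆ T.image fun a => a.1 ^ 2 * a.2.1 * a.2.2 := by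
    intro m hm
    obtain ⟨n, hn, rfl⟩ := mem_image.1 hm
    rw [mem_Icc] at hn
    obtain ⟨k, t, e, hk, ht1, ht2, he, hs, ho, h2, h6⟩ := toggle hn.1
    refine mem_image.2 ⟨(k, t, e), ?_, h6.symm⟩
    simp only [hT, hS, E, mem_product, mem_Icc, mem_filter]
    have hk2 : 1 ≤ k ^ 2 := Nat.one_le_pow _ _ hk
    refine ⟨⟨hk, ?_⟩, ⟨ht1, ht2⟩, ⟨⟨he, ?_⟩, hs, ho⟩, h2⟩
    · have h1 : k ≤ k ^ 2 := Nat.le_self_pow (by norm_num) k
      have h3 : k ^ 2 ≤ k ^ 2 * t * e :=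
        (Nat.le_mul_of_pos_right _ ht1).trans (Nat.le_mul_of_pos_right _ he)
      omega
    · have h3 : e ≤ k ^ 2 * t * e := Nat.le_mul_of_pos_left _ (Nat.mul_pos hk2 ht1)
      omega
  have h1 : ∑ n ∈ Icc 1 Y, 1 / (n : ℝ) =
      6 * ∑ m ∈ (Icc 1 Y).image (fun n : ℕ => (6 * n : ℕ)), 1 / ((m : ℕ) : ℝ) := by
    rw [sum_image (fun a _ b _ h => Nat.eq_of_mul_eq_mul_left (by norm_num) h), mul_sum]
    refine sum_congr rfl fun n _ => ?_
    push_cast
    rcases eq_or_ne (n : ℝ) 0 with h | h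
    · simp [h]
    · field_simp
  have h2 : ∑ m ∈ (Icc 1 Y).image (fun n : ℕ => (6 * n : ℕ)), 1 / ((m : ℕ) : ℝ) ≤
      ∑ a ∈ T, 1 / ((a.1 ^ 2 * a.2.1 * a.2.2 : ℕ) : ℝ) :=
    (sum_le_sum_of_subset_of_nonneg (f := fun m : ℕ => 1 / (m : ℝ)) hsub
      fun _ _ _ => by positivity).trans
      (sum_image_le_of_nonneg (f := fun m : ℕ => 1 / (m : ℝ)) fun _ _ => by positivity)
  have hS0 : 0 ≤ ∑ e ∈ S, 1 / (e : ℝ) := sum_nonneg fun _ _ => by positivity
  have h3 : ∑ a ∈ T, 1 / ((a.1 ^ 2 * a.2.1 * a.2.2 : ℕ) : ℝ) ≤ 2 * (18 * ∑ e ∈ S, 1 / (e : ℝ)) := by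
    rw [hT, sum_product]
    refine le_trans (sum_le_sum (g := fun k : ℕ => 1 / (k : ℝ) ^ 2 * (18 * ∑ e ∈ S, 1 / (e : ℝ)))
      fun k _ => ?_) ?_
    · rw [sum_product]
      refine le_trans (sum_le_sum (g := fun _ : ℕ => 1 / (k : ℝ) ^ 2 * ∑ e ∈ S, 1 / (e : ℝ))
        fun t ht => ?_) (le_of_eq ?_)
      · rw [mul_sum]
        refine sum_le_sum fun e _ => ?_
        have ht1 : (1 : ℝ) ≤ t := by exact_mod_cast (mem_Icc.1 ht).1
        push_cast
        have : 1 / ((k : ℝ) ^ 2 * t * e) = 1 / (k : ℝ) ^ 2 * (1 / e) * (1 / t) := by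
          simp only [one_div, mul_inv]; ring
        rw [this]
        exact mul_le_of_le_one_right (by positivity) ((div_le_one (by linarith)).2 ht1)
      · rw [sum_const, Nat.card_Icc, nsmul_eq_mul]; norm_num; ring
    · rw [← sum_mul]
      exact mul_le_mul_of_nonneg_right (inv_sq_le _) (by positivity)
  linarith

end Crest.Agent.R26.S36
end

-- ▼ part PVc/R26/S36AuxB
section

/-! Row 26, parity of shifted primes: the sifted sums. -/

set_option autoImplicit false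

namespace Crest.Agent.R26.S36

open Finset
open Crest.Agent.R5 (pr pd)

theorem mem_pr {z p : ℕ} : p ∈ pr 0 (z : ℝ) ↔ p.Prime ∧ p ≤ z := by
  unfold pr
  rw [mem_filter, mem_Icc, Nat.floor_natCast]
  constructor
  · exact fun h => ⟨h.2.1, h.1.2⟩
  · exact fun h => ⟨⟨h.1.one_le, h.2⟩, h.1, by exact_mod_cast h.1.pos⟩

theorem pr_succ (z : ℕ) : pr 0 ((z + 1 : ℕ) : ℝ) =
    if (z + 1).Prime then insert (z + 1) (pr 0 (z : ℝ)) else pr 0 (z : ℝ) := by
  ext p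
  split_ifs with h
  · rw [mem_insert, mem_pr, mem_pr]
    constructor
    · rintro ⟨h1, h2⟩
      rcases h2.eq_or_lt with h3 | h3
      · exact Or.inl h3
      · exact Or.inr ⟨h1, by omega⟩
    · rintro (rfl | ⟨h1, h2⟩)
      · exact ⟨h, le_rfl⟩
      · exact ⟨h1, by omega⟩
  · rw [mem_pr, mem_pr]
    refine and_congr_right fun hp => ⟨fun h2 => ?_, fun h2 => by omega⟩
    rcases h2.eq_or_lt with h3 | h3
    · exact absurd (h3 ▸ hp) h
    · omega

theorem prod_succ (f : ℕ → ℝ) (z : ℕ) : ∏ p ∈ pr 0 ((z + 1 : ℕ) : ℝ), f p =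
    (if (z + 1).Prime then f (z + 1) else 1) * ∏ p ∈ pr 0 (z : ℝ), f p := by
  rw [pr_succ]
  split_ifs with h
  · rw [prod_insert fun h => by have := (mem_pr.1 h).2; omega]
  · rw [one_mul]

theorem pr_one : pr 0 ((1 : ℕ) : ℝ) = ∅ :=
  eq_empty_of_forall_notMem fun p hp => by
    have h := mem_pr.1 hp
    have := h.1.two_le
    omega

theorem pr_two : pr 0 ((2 : ℕ) : ℝ) = {2} := by
  ext p
  rw [mem_pr, mem_singleton]
  exact ⟨fun h => le_antisymm h.2 h.1.two_le, fun h => by rw [h]; exact ⟨Nat.prime_two, le_rfl⟩⟩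

theorem V_ge {z : ℕ} (hz : 1 ≤ z) : 1 / (z : ℝ) ≤ ∏ p ∈ pr 0 (z : ℝ), (1 - 1 / (p : ℝ)) := by
  induction z, hz using Nat.le_induction with
  | base => rw [pr_one]; simp
  | succ n hn ih =>
    rw [prod_succ]
    have hn' : (1 : ℝ) ≤ n := by exact_mod_cast hn
    have h1 : (n : ℝ) / (n + 1) ≤ if (n + 1).Prime then 1 - 1 / ((n + 1 : ℕ) : ℝ) else 1 := by
      split_ifs
      · push_cast; apply le_of_eq; field_simp; ring
      · rw [div_le_one (by linarith)]; linarith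
    calc 1 / ((n + 1 : ℕ) : ℝ) = (n : ℝ) / (n + 1) * (1 / n) := by push_cast; field_simp
      _ ≤ _ := mul_le_mul h1 ih (by positivity) (le_trans (by positivity) h1)

theorem V_le (S : Finset ℕ) : ∏ p ∈ S, (1 - 1 / (p : ℝ)) ≤ 1 :=
  prod_le_one (fun p _ => sub_nonneg.2 (BH.w01 p).2) fun p _ => by linarith [(BH.w01 p).1]

theorem W_sq {z : ℕ} (hz : 2 ≤ z) :
    (∏ p ∈ pr 0 (z : ℝ), (1 + 1 / ((p : ℝ) - 1))) ^ 2 ≤ 4 * (2 * (((z + 1) / 2 : ℕ) : ℝ) - 1) := by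
  induction z, hz using Nat.le_induction with
  | base =>
    rw [pr_two, prod_singleton]
    norm_num
  | succ n hn ih =>
    rw [prod_succ, mul_pow]
    split_ifs with h
    · obtain ⟨m, rfl⟩ : ∃ m, n = 2 * m := by
        have := h.eq_two_or_odd
        exact ⟨n / 2, by omega⟩
      have e1 : (2 * m + 1) / 2 = m := by omega
      have e2 : (2 * m + 1 + 1) / 2 = m + 1 := by omega
      rw [e1] at ih
      rw [e2]
      have hm : (1 : ℝ) ≤ m := by exact_mod_cast (show 1 ≤ m by omega)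
      refine (mul_le_mul_of_nonneg_left ih (sq_nonneg _)).trans ?_
      push_cast
      have : (1 + 1 / (2 * (m : ℝ) + 1 - 1)) = (2 * m + 1) / (2 * m) := by field_simp; ring
      rw [this, div_pow, div_mul_eq_mul_div, div_le_iff₀ (by positivity)]
      nlinarith
    · rw [one_pow, one_mul]
      refine ih.trans ?_
      have : (((n + 1) / 2 : ℕ) : ℝ) ≤ (((n + 1 + 1) / 2 : ℕ) : ℝ) := by
        exact_mod_cast Nat.div_le_div_right (by omega)
      linarith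

theorem W_le {z : ℕ} (hz : 2 ≤ z) :
    ∏ p ∈ pr 0 (z : ℝ), (1 + 1 / ((p : ℝ) - 1)) ≤ 2 * √(z : ℝ) := by
  have h1 := W_sq hz
  have h2 : 2 * (((z + 1) / 2 : ℕ) : ℝ) ≤ z + 1 := by
    have : 2 * ((z + 1) / 2) ≤ z + 1 := Nat.mul_div_le _ _
    exact_mod_cast this
  refine (abs_le_of_sq_le_sq' ?_ (by positivity)).2
  rw [mul_pow, Real.sq_sqrt (Nat.cast_nonneg _)]
  linarith

theorem G_ge {z : ℕ} (hz : 2 ≤ z) : (z : ℝ) / (2 * (z - 1)) ≤
    ∏ p ∈ pr 0 (z : ℝ), (if p = 2 then 1 else 1 - 1 / ((p : ℝ) - 1) ^ 2) := by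
  induction z, hz using Nat.le_induction with
  | base =>
    rw [pr_two, prod_singleton]
    norm_num
  | succ n hn ih =>
    rw [prod_succ, if_neg (show n + 1 ≠ 2 by omega)]
    have hn' : (2 : ℝ) ≤ n := by exact_mod_cast hn
    have h0 : (0 : ℝ) < n - 1 := by linarith
    have h1 : 1 - 1 / (n : ℝ) ^ 2 ≤
        if (n + 1).Prime then 1 - 1 / (((n + 1 : ℕ) : ℝ) - 1) ^ 2 else 1 := by
      split_ifs
      · push_cast; apply le_of_eq; ring
      · have : 0 ≤ 1 / (n : ℝ) ^ 2 := by positivity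
        linarith
    have h2 : 0 ≤ 1 - 1 / (n : ℝ) ^ 2 := by
      rw [sub_nonneg, div_le_one (by positivity)]; nlinarith
    calc ((n + 1 : ℕ) : ℝ) / (2 * (((n + 1 : ℕ) : ℝ) - 1))
        = (1 - 1 / (n : ℝ) ^ 2) * ((n : ℝ) / (2 * (n - 1))) := by
          push_cast
          rw [add_sub_cancel_right]
          have : (n : ℝ) ≠ 0 := by linarith
          field_simp; ring
      _ ≤ _ := mul_le_mul h1 ih (by positivity) (h2.trans h1)

/-- local densities for the cofactor `e` -/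
noncomputable def w (e p : ℕ) : ℝ := if p ∣ e then 0 else 1 / ((p : ℝ) - 1)

theorem w_le {e p : ℕ} (hp : p.Prime) : 0 ≤ w e p ∧ w e p ≤ 1 / ((p : ℝ) - 1) ∧ w e p ≤ 1 := by
  have h2 : (2 : ℝ) ≤ p := by exact_mod_cast hp.two_le
  have h0 : 0 ≤ 1 / ((p : ℝ) - 1) := div_nonneg zero_le_one (by linarith)
  have h1 : 1 / ((p : ℝ) - 1) ≤ 1 := (div_le_one (by linarith)).2 (by linarith)
  unfold w
  split_ifs
  · exact ⟨le_rfl, h0, zero_le_one⟩
  · exact ⟨h0, le_rfl, h1⟩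

theorem prod_w_ge {z e : ℕ} (hz : 2 ≤ z) (he : 2 ∣ e) :
    (∏ p ∈ pr 0 (z : ℝ), (1 - 1 / (p : ℝ))) / 2 ≤ ∏ p ∈ pr 0 (z : ℝ), (1 - w e p) := by
  have hz' : (2 : ℝ) ≤ z := by exact_mod_cast hz
  have h1 : (1 : ℝ) / 2 ≤ ∏ p ∈ pr 0 (z : ℝ), (if p = 2 then 1 else 1 - 1 / ((p : ℝ) - 1) ^ 2) := by
    refine le_trans ?_ (G_ge hz)
    rw [div_le_div_iff₀ (by norm_num) (by linarith)]
    linarith
  calc _ = (∏ p ∈ pr 0 (z : ℝ), (1 - 1 / (p : ℝ))) * (1 / 2) := by ring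
    _ ≤ (∏ p ∈ pr 0 (z : ℝ), (1 - 1 / (p : ℝ))) *
        ∏ p ∈ pr 0 (z : ℝ), (if p = 2 then 1 else 1 - 1 / ((p : ℝ) - 1) ^ 2) :=
      mul_le_mul_of_nonneg_left h1 (BH.Vnn _)
    _ ≤ _ := by
      rw [← prod_mul_distrib]
      have key : ∀ p ∈ pr 0 (z : ℝ),
          0 ≤ (1 - 1 / (p : ℝ)) * (if p = 2 then 1 else 1 - 1 / ((p : ℝ) - 1) ^ 2) ∧
          (1 - 1 / (p : ℝ)) * (if p = 2 then 1 else 1 - 1 / ((p : ℝ) - 1) ^ 2) ≤ 1 - w e p := by
        intro p hp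
        have hp := (mem_pr.1 hp).1
        split_ifs with h
        · subst h
          unfold w
          rw [if_pos he]; norm_num
        · have h3 : (3 : ℝ) ≤ p := by
            have := hp.two_le
            exact_mod_cast (show 3 ≤ p by omega)
          have h0 : (0 : ℝ) < p - 1 := by linarith
          have h4 : (1 - 1 / (p : ℝ)) * (1 - 1 / ((p : ℝ) - 1) ^ 2) = 1 - 1 / ((p : ℝ) - 1) := by
            field_simp; ring
          rw [h4]
          refine ⟨?_, by linarith [(w_le (e := e) hp).2.1]⟩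
          rw [sub_nonneg, div_le_one h0]; linarith
      exact prod_le_prod (fun p hp => (key p hp).1) fun p hp => (key p hp).2

/-- the singular series of the cofactor `e` -/
noncomputable def sg (z : ℕ) (l : Finset ℕ → ℝ) (e : ℕ) : ℝ :=
  ∑ s ∈ (pr 0 (z : ℝ)).powerset, l s * ∏ p ∈ s, w e p

theorem abs_sg {z : ℕ} (hz : 2 ≤ z) {l : Finset ℕ → ℝ} (hl : ∀ s, |l s| ≤ 1) (e : ℕ) :
    |sg z l e| ≤ 2 * √(z : ℝ) := by
  refine le_trans ?_ (W_le hz)
  rw [prod_one_add]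
  refine (abs_sum_le_sum_abs _ _).trans (sum_le_sum fun s hs => ?_)
  have hs' : ∀ p ∈ s, p.Prime := fun p hp => (mem_pr.1 (mem_powerset.1 hs hp)).1
  have h0 : 0 ≤ ∏ p ∈ s, w e p := prod_nonneg fun p hp => (w_le (hs' p hp)).1
  rw [abs_mul, abs_of_nonneg h0]
  exact (mul_le_of_le_one_left h0 (hl s)).trans
    (prod_le_prod (fun p hp => (w_le (hs' p hp)).1) fun p hp => (w_le (hs' p hp)).2.1)

theorem sg_ge {z : ℕ} {l : Finset ℕ → ℝ}
    (hl : ∀ T ⊆ pr 0 (z : ℝ), (if T = ∅ then (1 : ℝ) else 0) ≤ ∑ s ∈ T.powerset, l s) (e : ℕ) :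
    ∏ p ∈ pr 0 (z : ℝ), (1 - w e p) ≤ sg z l e :=
  BH.upper _ _ (fun _ hp => ⟨(w_le (mem_pr.1 hp).1).1, (w_le (mem_pr.1 hp).1).2.2⟩) l hl

theorem sg_nonneg {z : ℕ} {l : Finset ℕ → ℝ}
    (hl : ∀ T ⊆ pr 0 (z : ℝ), (if T = ∅ then (1 : ℝ) else 0) ≤ ∑ s ∈ T.powerset, l s) (e : ℕ) :
    0 ≤ sg z l e :=
  (prod_nonneg fun _ hp => sub_nonneg.2 (w_le (mem_pr.1 hp).1).2.2).trans (sg_ge hl e)

theorem pd_pos {s : Finset ℕ} (hs : ∀ p ∈ s, p.Prime) : 1 ≤ pd s :=
  prod_pos fun p hp => (hs p hp).pos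

theorem dens_pd (e : ℕ) (s : Finset ℕ) (hs : ∀ p ∈ s, p.Prime) :
    (if Nat.Coprime e (pd s) then 1 / ((pd s).totient : ℝ) else 0) = ∏ p ∈ s, w e p := by
  induction s using Finset.induction_on with
  | empty => simp [pd]
  | insert a s ha ih =>
    have hp := hs a (mem_insert_self _ _)
    have hs' : ∀ p ∈ s, p.Prime := fun p h => hs p (mem_insert_of_mem h)
    have hn : ¬ a ∣ pd s := fun h => by
      obtain ⟨q, hq, h⟩ := (Prime.dvd_finsetProd_iff hp.prime _).1 h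
      exact ha ((Nat.prime_dvd_prime_iff_eq hp (hs' q hq)).1 h ▸ hq)
    have e1 : pd (insert a s) = a * pd s := prod_insert ha
    have e2 : Nat.Coprime e (a * pd s) ↔ ¬ a ∣ e ∧ Nat.Coprime e (pd s) := by
      rw [Nat.coprime_mul_iff_right, ← hp.coprime_iff_not_dvd, Nat.coprime_comm]
    rw [prod_insert ha, ← ih hs', e1, Nat.totient_mul_of_prime_of_not_dvd hp hn]
    simp only [e2]
    unfold w
    push_cast [Nat.cast_sub hp.one_le]
    by_cases h1 : a ∣ e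
    · rw [if_neg (fun h => h.1 h1), if_pos h1, zero_mul]
    · by_cases h2 : Nat.Coprime e (pd s)
      · rw [if_pos ⟨h1, h2⟩, if_neg h1, if_pos h2, one_div, one_div, one_div, mul_inv]
      · rw [if_neg (fun h => h2 h.2), if_neg h2, mul_zero]

theorem dens_mul (e r : ℕ) (s : Finset ℕ) (hs : ∀ p ∈ s, p.Prime) (hr : Nat.Coprime r (pd s))
    (a : ℝ) : (if Nat.Coprime e (r * pd s) then a / ((r * pd s).totient : ℝ) else 0) =
      a * (if Nat.Coprime e r then 1 / (r.totient : ℝ) else 0) * ∏ p ∈ s, w e p := by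
  rw [← dens_pd e s hs, Nat.totient_mul hr]
  simp only [Nat.coprime_mul_iff_right]
  push_cast
  by_cases h1 : Nat.Coprime e r
  · by_cases h2 : Nat.Coprime e (pd s)
    · rw [if_pos ⟨h1, h2⟩, if_pos h1, if_pos h2, div_eq_mul_inv, mul_inv, one_div, one_div,
        mul_assoc]
    · rw [if_neg (fun h => h2 h.2), if_neg h2, mul_zero]
  · rw [if_neg (fun h => h1 h.1), if_neg h1, mul_zero, zero_mul]

variable {η γ : ℝ} {x : ℕ} {l : Finset ℕ → ℝ}

theorem sum_abs (h : Wts η γ x l) :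
    ∑ s ∈ (pr 0 (zz η x : ℝ)).powerset, |l s| ≤ (x : ℝ) ^ γ := by
  classical
  rw [← sum_filter_ne_zero]
  refine (sum_le_card_nsmul _ _ 1 fun s _ => h.abs_le s).trans ?_
  rw [nsmul_eq_mul, mul_one]
  have : (((pr 0 (zz η x : ℝ)).powerset).filter (fun s => |l s| ≠ 0)).card ≤
      (Icc 1 ⌊(x : ℝ) ^ γ⌋₊).card := by
    refine card_le_card_of_injOn pd (fun s hs => ?_) fun s hs t ht e => ?_
    · simp only [coe_filter, mem_powerset, Set.mem_ofPred_eq] at hs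
      refine mem_coe.2 (mem_Icc.2 ⟨pd_pos fun p hp => (mem_pr.1 (hs.1 hp)).1, Nat.le_floor ?_⟩)
      exact (h.supp s (abs_ne_zero.1 hs.2)).2
    · simp only [coe_filter, mem_powerset, Set.mem_ofPred_eq] at hs ht
      rw [← Nat.primeFactors_prod (s := s) fun p hp => (mem_pr.1 (hs.1 hp)).1,
        ← Nat.primeFactors_prod (s := t) fun p hp => (mem_pr.1 (ht.1 hp)).1]
      exact congrArg Nat.primeFactors e
  rw [Nat.card_Icc, Nat.add_sub_cancel] at this
  exact le_trans (by exact_mod_cast this) (Nat.floor_le (by positivity))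

theorem nu_nonneg (h : Wts η γ x l) {g : ℕ → ℝ} (hg : ∀ n, 0 ≤ g n) : 0 ≤ nuSum η x l g 1 := by
  unfold nuSum
  simp only [one_mul, sum_filter, mul_sum]
  rw [sum_comm]
  refine sum_nonneg fun N _ => ?_
  have e : ∑ s ∈ (pr 0 (zz η x : ℝ)).powerset, l s * (if pd s ∣ N then g (N - 1) else 0) =
      (∑ s ∈ ((pr 0 (zz η x : ℝ)).filter (fun p => p ∣ N)).powerset, l s) * g (N - 1) := by
    rw [sum_mul]
    simp only [mul_ite, mul_zero]
    rw [← sum_filter]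
    refine sum_congr ?_ fun _ _ => rfl
    ext s
    simp only [mem_filter, mem_powerset, subset_iff]
    constructor
    · rintro ⟨h1, h2⟩ p hp
      exact ⟨h1 hp, (dvd_prod_of_mem _ hp).trans h2⟩
    · intro h1
      exact ⟨fun p hp => (h1 hp).1, Finset.prod_primes_dvd _
        (fun p hp => (mem_pr.1 (h1 hp).1).1.prime) fun p hp => (h1 hp).2⟩
  rw [e]
  refine mul_nonneg (le_trans ?_ (h.upper _ (filter_subset _ _))) (hg _)
  split_ifs <;> norm_num

theorem nu_sub (f : ℕ → ℝ) (Φ : ℝ) (r : ℕ) :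
    nuSum η x l (fun n => f n - Φ) r = nuSum η x l f r - Φ * nuSum η x l (fun _ => 1) r := by
  unfold nuSum
  rw [mul_sum, ← sum_sub_distrib]
  refine sum_congr rfl fun s _ => ?_
  rw [sum_sub_distrib, sum_const, sum_const, nsmul_eq_mul, nsmul_eq_mul]
  ring

theorem cnt_dvd (x : ℕ) {D : ℕ} (hD : 1 ≤ D) :
    |∑ _N ∈ (Ioc x (2 * x)).filter (fun N => D ∣ N), (1 : ℝ) - x / D| ≤ 1 := by
  have h1 : ((Ioc x (2 * x)).filter (fun N => D ∣ N)).card + x / D = 2 * x / D := by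
    rw [← Nat.Ioc_filter_dvd_card_eq_div, ← Nat.Ioc_filter_dvd_card_eq_div,
      ← card_union_of_disjoint]
    · congr 1
      ext N
      simp only [mem_union, mem_filter, mem_Ioc]
      by_cases h : D ∣ N <;> simp only [h, and_true, and_false, or_self]
      omega
    · rw [disjoint_left]
      intro N h1 h2
      simp only [mem_filter, mem_Ioc] at h1 h2
      omega
  have hD' : (0 : ℝ) < D := by exact_mod_cast hD
  have key : ∀ n : ℕ, ((n / D : ℕ) : ℝ) ≤ (n : ℝ) / D ∧ (n : ℝ) / D < ((n / D : ℕ) : ℝ) + 1 := by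
    intro n
    refine ⟨Nat.cast_div_le, ?_⟩
    rw [div_lt_iff₀ hD']
    have : n < (n / D + 1) * D := by
      have := Nat.lt_mul_div_succ n hD
      rwa [mul_comm] at this
    exact_mod_cast this
  have h2 : (((Ioc x (2 * x)).filter (fun N => D ∣ N)).card : ℝ) + ((x / D : ℕ) : ℝ) =
      ((2 * x / D : ℕ) : ℝ) := by exact_mod_cast h1
  have h3 := key x
  have h4 := key (2 * x)
  have h5 : ((2 * x : ℕ) : ℝ) / D = 2 * ((x : ℝ) / D) := by push_cast; ring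
  rw [h5] at h4
  rw [sum_const, nsmul_eq_mul, mul_one, abs_le]
  constructor <;> linarith [h3.1, h3.2, h4.1, h4.2]

theorem nu_one (h : Wts η γ x l) {r : ℕ} (hr : 1 ≤ r) :
    |nuSum η x l (fun _ => 1) r - x * (∑ s ∈ (pr 0 (zz η x : ℝ)).powerset, l s / pd s) / r| ≤
      (x : ℝ) ^ γ := by
  refine le_trans ?_ (sum_abs h)
  unfold nuSum
  rw [mul_sum, sum_div, ← sum_sub_distrib]
  refine (abs_sum_le_sum_abs _ _).trans (sum_le_sum fun s hs => ?_)
  have hs' : ∀ p ∈ s, p.Prime := fun p hp => (mem_pr.1 (mem_powerset.1 hs hp)).1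
  have := cnt_dvd x (D := r * pd s) (Nat.mul_pos hr (pd_pos hs'))
  have e : (x : ℝ) * (l s / pd s) / r = l s * (x / ((r * pd s : ℕ) : ℝ)) := by
    push_cast
    simp only [div_eq_mul_inv, mul_inv]; ring
  rw [e, ← mul_sub, abs_mul]
  exact mul_le_of_le_one_right (abs_nonneg _) this

theorem nu_F {δ C : ℝ} (hδ : δ ≤ 1 / 4) (hC : 0 < C)
    (H : ∀ r a y₁ y₂ : ℕ, 1 ≤ r → Nat.Coprime a r → y₁ ≤ y₂ →
      |(((Ioc y₁ y₂).filter (fun p => p.Prime ∧ p ≡ a [MOD r])).card : ℝ) -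
        ((Ioc y₁ y₂).filter Nat.Prime).card / (r.totient : ℝ)| ≤
        C * (y₂ : ℝ) ^ (1 - δ) * Real.log (2 * r))
    (h : Wts η γ x l) {y K r : ℕ} (hx : 1 ≤ x) (hK : 2 * x ≤ K * (y + 1)) (hKy : K ≤ y)
    (hr : 1 ≤ r) (hco : ∀ p, p.Prime → p ≤ zz η x → ¬ p ∣ r) :
    |nuSum η x l (F y) r - ∑ e ∈ E K, (Pi x y e : ℝ) *
        (if Nat.Coprime e r then 1 / (r.totient : ℝ) else 0) * sg (zz η x) l e| ≤
      (x : ℝ) ^ γ * (K * (C * (2 * x : ℝ) ^ (1 - δ) * Real.log (2 * r * (x : ℝ) ^ γ))) := by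
  have hr' : (1 : ℝ) ≤ r := by exact_mod_cast hr
  unfold nuSum sg
  simp only [mul_sum (pr 0 (zz η x : ℝ)).powerset]
  rw [sum_comm, ← sum_sub_distrib]
  refine (abs_sum_le_sum_abs _ _).trans ?_
  have key : ∀ s ∈ (pr 0 (zz η x : ℝ)).powerset,
      |l s * ∑ N ∈ (Ioc x (2 * x)).filter (fun N => r * pd s ∣ N), F y (N - 1) -
        ∑ e ∈ E K, (Pi x y e : ℝ) * (if Nat.Coprime e r then 1 / (r.totient : ℝ) else 0) *
          (l s * ∏ p ∈ s, w e p)| ≤
      |l s| * (K * (C * (2 * x : ℝ) ^ (1 - δ) * Real.log (2 * r * (x : ℝ) ^ γ))) := by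
    intro s hs
    rcases eq_or_ne (l s) 0 with h0 | h0
    · simp [h0]
    have hs' : ∀ p ∈ s, p.Prime := fun p hp => (mem_pr.1 (mem_powerset.1 hs hp)).1
    have hc : Nat.Coprime r (pd s) := Nat.Coprime.prod_right fun p hp =>
      ((hs' p hp).coprime_iff_not_dvd.2
        (hco p (hs' p hp) (mem_pr.1 (mem_powerset.1 hs hp)).2)).symm
    have hD : 1 ≤ r * pd s := Nat.mul_pos hr (pd_pos hs')
    have e : ∑ e ∈ E K, (Pi x y e : ℝ) * (if Nat.Coprime e r then 1 / (r.totient : ℝ) else 0) *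
          (l s * ∏ p ∈ s, w e p) = l s * ∑ e ∈ E K,
        (if Nat.Coprime e (r * pd s) then (Pi x y e : ℝ) / ((r * pd s).totient : ℝ) else 0) := by
      rw [mul_sum]
      refine sum_congr rfl fun e _ => ?_
      rw [dens_mul e r s hs' hc]; ring
    rw [e, decomp hx hK hKy, ← mul_sub, abs_mul, ← sum_sub_distrib]
    refine mul_le_mul_of_nonneg_left ((abs_sum_le_sum_abs _ _).trans ?_) (abs_nonneg _)
    have hlog : Real.log (2 * ((r * pd s : ℕ) : ℝ)) ≤ Real.log (2 * r * (x : ℝ) ^ γ) := by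
      have h1 : (1 : ℝ) ≤ ((r * pd s : ℕ) : ℝ) := by exact_mod_cast hD
      refine Real.log_le_log (by linarith) ?_
      push_cast
      rw [mul_assoc]
      have := (h.supp s h0).2
      gcongr
    have hlog0 : 0 ≤ Real.log (2 * ((r * pd s : ℕ) : ℝ)) := Real.log_nonneg (by
      have h1 : (1 : ℝ) ≤ ((r * pd s : ℕ) : ℝ) := by exact_mod_cast hD
      linarith)
    refine (sum_le_card_nsmul _ _ (C * (2 * x : ℝ) ^ (1 - δ) * Real.log (2 * r * (x : ℝ) ^ γ))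
      fun e _ => (cnt_ap hδ hC H x y e _ hD).trans (by gcongr)).trans ?_
    rw [nsmul_eq_mul]
    have hE : (E K).card ≤ K := (card_filter_le _ _).trans (by simp)
    have hE' : ((E K).card : ℝ) ≤ K := by exact_mod_cast hE
    have : 0 ≤ Real.log (2 * r * (x : ℝ) ^ γ) := hlog0.trans hlog
    gcongr
  refine (sum_le_sum key).trans ?_
  rw [← sum_mul]
  rcases (pr 0 (zz η x : ℝ)).powerset.eq_empty_or_nonempty with h0 | -
  · exact absurd h0 (powerset_nonempty _).ne_empty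
  have h1 : (1 : ℝ) ≤ (x : ℝ) ^ γ := by
    have h2 := h.upper ∅ (empty_subset _)
    simp only [if_true, powerset_empty, sum_singleton] at h2
    have := (h.supp ∅ (by linarith)).2
    simpa [pd] using this
  have : 0 ≤ Real.log (2 * r * (x : ℝ) ^ γ) := Real.log_nonneg (by nlinarith)
  exact mul_le_mul_of_nonneg_right (sum_abs h) (by positivity)

end Crest.Agent.R26.S36
end

-- ▼ part PVc/R26/S36
section

/-! Row 26: parity of shifted primes. -/

set_option autoImplicit false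

namespace Crest.Agent.R26

open Finset Filter
open Crest.Agent.R5 (pr pd ee nit)

namespace S36

theorem core {x L z r a₁ b₁ a b T Tr σ E₀ : ℝ} (hx : 0 < x) (hL : 1 ≤ L) (hz : 1 ≤ z)
    (hr₁ : z + 1 ≤ r) (hr₂ : r ≤ 2 * z) (ha : 0 ≤ a₁) (hab : a₁ ≤ b₁) (hb : 0 < b₁)
    (e₁ : |a₁ - T| ≤ E₀) (e₂ : |b₁ - x * σ| ≤ E₀) (e₃ : |a - (T - Tr) / (r - 1)| ≤ E₀)
    (e₄ : |b - x * σ / r| ≤ E₀) (hσ : σ ≤ 2) (h₁ : 12 * L ^ 2 ≤ z) (h₂ : 6 * L ^ 2 * |Tr| ≤ x)
    (h₃ : 24 * E₀ * z * L ^ 2 ≤ x) : |a - a₁ / b₁ * b| ≤ x / (r * L ^ 2) := by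
  obtain ⟨Φ, hΦ⟩ : ∃ Φ, Φ = a₁ / b₁ := ⟨_, rfl⟩
  have hΦ0 : 0 ≤ Φ := hΦ ▸ div_nonneg ha hb.le
  have hΦ1 : Φ ≤ 1 := hΦ ▸ (div_le_one hb).2 hab
  have hΦb : a₁ = Φ * b₁ := by rw [hΦ]; field_simp
  rw [← hΦ]
  have hr0 : 0 < r := by linarith
  have hr1 : 0 < r - 1 := by linarith
  have hE : 0 ≤ E₀ := (abs_nonneg _).trans e₁
  have hL2 : 1 ≤ L ^ 2 := one_le_pow₀ hL
  have hEx : E₀ ≤ x := by
    have : E₀ * 1 ≤ E₀ * (24 * z * L ^ 2) := mul_le_mul_of_nonneg_left (by nlinarith) hE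
    linarith
  have hT : |T| ≤ 4 * x := by
    have h1 := abs_le.1 e₁
    have h2 := abs_le.1 e₂
    have : x * σ ≤ x * 2 := mul_le_mul_of_nonneg_left hσ hx.le
    rw [abs_le]; constructor <;> linarith
  have id : a - Φ * b = (a - (T - Tr) / (r - 1)) - Φ * (b - x * σ / r) + T / (r * (r - 1)) -
      Tr / (r - 1) - (a₁ - T) / r + Φ * (b₁ - x * σ) / r := by
    rw [hΦb]; field_simp; ring
  have t1 : |Φ * (b - x * σ / r)| ≤ E₀ := by
    rw [abs_mul, abs_of_nonneg hΦ0]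
    exact (mul_le_of_le_one_left (abs_nonneg _) hΦ1).trans e₄
  have t2 : |T / (r * (r - 1))| ≤ x / (r * L ^ 2) / 3 := by
    rw [abs_div, abs_of_pos (mul_pos hr0 hr1), div_div, div_le_div_iff₀ (by positivity)
      (by positivity)]
    have h4 : |T| * (r * L ^ 2 * 3) ≤ 4 * x * (r * L ^ 2 * 3) :=
      mul_le_mul_of_nonneg_right hT (by positivity)
    have h5 : x * r * (12 * L ^ 2) ≤ x * r * (r - 1) :=
      mul_le_mul_of_nonneg_left (by linarith) (by positivity)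
    linarith
  have t3 : |Tr / (r - 1)| ≤ x / (r * L ^ 2) / 3 := by
    rw [abs_div, abs_of_pos hr1, div_div, div_le_div_iff₀ hr1 (by positivity)]
    have h4 : 6 * L ^ 2 * |Tr| * r ≤ x * r := mul_le_mul_of_nonneg_right h₂ hr0.le
    have h5 : x * r ≤ x * (2 * (r - 1)) := mul_le_mul_of_nonneg_left (by linarith) hx.le
    linarith
  have t4 : |(a₁ - T) / r| ≤ E₀ := by
    rw [abs_div, abs_of_pos hr0]
    exact (div_le_self (abs_nonneg _) (by linarith)).trans e₁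
  have t5 : |Φ * (b₁ - x * σ) / r| ≤ E₀ := by
    rw [abs_div, abs_of_pos hr0, abs_mul, abs_of_nonneg hΦ0]
    exact (div_le_self (by positivity) (by linarith)).trans
      ((mul_le_of_le_one_left (abs_nonneg _) hΦ1).trans e₂)
  have t6 : 4 * E₀ ≤ x / (r * L ^ 2) / 3 := by
    rw [div_div, le_div_iff₀ (by positivity)]
    have : E₀ * L ^ 2 * r ≤ E₀ * L ^ 2 * (2 * z) :=
      mul_le_mul_of_nonneg_left hr₂ (by positivity)
    linarith
  rw [id]
  have := abs_le.1 e₃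
  have := abs_le.1 t1
  have := abs_le.1 t2
  have := abs_le.1 t3
  have := abs_le.1 t4
  have := abs_le.1 t5
  rw [abs_le]
  constructor <;> linarith

theorem ev_pow (n : ℕ) {y : ℝ} (hy : 0 < y) (K : ℝ) :
    ∀ᶠ x : ℕ in atTop, K * Real.log x ^ n ≤ (x : ℝ) ^ y := by
  have h := (isLittleO_log_rpow_rpow_atTop (n : ℝ) hy).bound
    (c := 1 / (|K| + 1)) (by positivity)
  filter_upwards [tendsto_natCast_atTop_atTop.eventually h] with x hx
  have h0 : 0 ≤ Real.log x := Real.log_natCast_nonneg x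
  rw [Real.rpow_natCast, Real.norm_of_nonneg (by positivity), Real.norm_of_nonneg (by positivity),
    one_div, inv_mul_eq_div, le_div_iff₀ (by positivity)] at hx
  have : K * Real.log x ^ n ≤ (|K| + 1) * Real.log x ^ n :=
    mul_le_mul_of_nonneg_right (by linarith [le_abs_self K]) (by positivity)
  linarith

theorem ev_log (K : ℝ) : ∀ᶠ x : ℕ in atTop, K ≤ Real.log x :=
  (Real.tendsto_log_atTop.comp tendsto_natCast_atTop_atTop).eventually_ge_atTop K

theorem main_one (x y K z : ℕ) (l : Finset ℕ → ℝ) :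
    ∑ e ∈ E K, (Pi x y e : ℝ) * (if Nat.Coprime e 1 then 1 / ((Nat.totient 1 : ℕ) : ℝ) else 0) *
      sg z l e = ∑ e ∈ E K, (Pi x y e : ℝ) * sg z l e := by
  simp

theorem main_prime (x y K z : ℕ) (l : Finset ℕ → ℝ) {r : ℕ} (hr : r.Prime) :
    ∑ e ∈ E K, (Pi x y e : ℝ) * (if Nat.Coprime e r then 1 / ((Nat.totient r : ℕ) : ℝ) else 0) *
      sg z l e = (∑ e ∈ E K, (Pi x y e : ℝ) * sg z l e -
        ∑ e ∈ (E K).filter (fun e => r ∣ e), (Pi x y e : ℝ) * sg z l e) / (r - 1) := by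
  rw [sum_filter, ← sum_sub_distrib, sum_div, Nat.totient_prime hr, Nat.cast_sub hr.one_le,
    Nat.cast_one]
  refine sum_congr rfl fun e _ => ?_
  by_cases h : r ∣ e
  · rw [if_neg (fun h' => (hr.coprime_iff_not_dvd.1 h'.symm) h), if_pos h]; simp
  · rw [if_pos (hr.coprime_iff_not_dvd.2 h).symm, if_neg h]; ring

theorem Tr_le {x y K z r : ℕ} {l : Finset ℕ → ℝ} (hz : 2 ≤ z) (hl : ∀ s, |l s| ≤ 1) (hr : 1 ≤ r) :
    |∑ e ∈ (E K).filter (fun e => r ∣ e), (Pi x y e : ℝ) * sg z l e| ≤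
      4 * x * √(z : ℝ) * ((1 + Real.log K) / r) := by
  refine (abs_sum_le_sum_abs _ _).trans (le_trans ?_
    (mul_le_mul_of_nonneg_left (harm_dvd K hr) (by positivity)))
  rw [mul_sum]
  refine sum_le_sum fun e _ => ?_
  rw [abs_mul, abs_of_nonneg (Nat.cast_nonneg _)]
  refine (mul_le_mul (Pi_le x y e) (abs_sg hz hl e) (abs_nonneg _) (by positivity)).trans
    (le_of_eq ?_)
  ring

theorem T_ge {c : ℝ} (hc : 0 < c) {m₀ : ℕ} (hm : ∀ m : ℕ, m₀ ≤ m → c * m / Real.log m ≤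
      ((Ioc m (2 * m)).filter (fun p => p.Prime ∧ p ≡ 1 [MOD 1])).card)
    {x y Y z : ℕ} {l : Finset ℕ → ℝ} (hz : 2 ≤ z)
    (hl : ∀ T ⊆ pr 0 (z : ℝ), (if T = ∅ then (1 : ℝ) else 0) ≤ ∑ s ∈ T.powerset, l s)
    (hy₀ : m₀ ≤ y) (hy₂ : 2 ≤ y) (hx : 2 ≤ x) (hy : 12 * Y * y ≤ x) :
    c * x / (864 * Real.log x) * (∏ p ∈ pr 0 (z : ℝ), (1 - 1 / (p : ℝ))) * Real.log (Y + 1) ≤
      ∑ e ∈ E (24 * Y), (Pi x y e : ℝ) * sg z l e := by
  have hL : 0 < Real.log x := Real.log_pos (by exact_mod_cast hx)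
  have hV := BH.Vnn (pr 0 (z : ℝ))
  have hsub : (E (6 * Y)).filter (fun e => 2 ∣ e) ⊆ E (24 * Y) := by
    intro e he
    simp only [E, mem_filter, mem_Icc] at he ⊢
    exact ⟨⟨he.1.1.1, by omega⟩, he.1.2⟩
  refine le_trans ?_ (sum_le_sum_of_subset_of_nonneg hsub fun e _ _ =>
    mul_nonneg (Nat.cast_nonneg _) (sg_nonneg hl e))
  refine (mul_le_mul_of_nonneg_left (harm_even Y) (by positivity)).trans ?_
  rw [mul_sum, mul_sum]
  refine sum_le_sum fun e he => ?_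
  simp only [E, mem_filter, mem_Icc] at he
  obtain ⟨⟨⟨he1, he2⟩, -⟩, h2⟩ := he
  have hey : e * y ≤ x - 1 := by
    have : e * y ≤ 6 * Y * y := Nat.mul_le_mul_right _ he2
    have : 12 * Y * y = 2 * (6 * Y * y) := by ring
    omega
  have h1 : y ≤ (x - 1) / e := (Nat.le_div_iff_mul_le he1).2 (by rw [mul_comm]; exact hey)
  have h3 := hm _ (hy₀.trans h1)
  have h4 : (((Ioc ((x - 1) / e) (2 * ((x - 1) / e))).filter
      (fun p => p.Prime ∧ p ≡ 1 [MOD 1])).card : ℝ) ≤ Pi x y e := by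
    exact_mod_cast Pi_ge he1 hey
  obtain ⟨m, hm'⟩ : ∃ m, m = (x - 1) / e := ⟨_, rfl⟩
  rw [← hm'] at h1 h3 h4
  have h5 : x ≤ 2 * m * e := by
    have h6 : x - 1 < e * (m + 1) := hm' ▸ Nat.lt_mul_div_succ _ he1
    have h7 : e * (m + 1) ≤ e * (2 * m) := Nat.mul_le_mul_left _ (by omega)
    have h8 : e * (2 * m) = 2 * m * e := by ring
    omega
  have h6 : m ≤ x := hm' ▸ (Nat.div_le_self _ _).trans (Nat.sub_le _ _)
  have hm2 : (2 : ℝ) ≤ m := by exact_mod_cast hy₂.trans h1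
  have hlm : 0 < Real.log m := Real.log_pos (by linarith)
  have hlm' : Real.log m ≤ Real.log x := Real.log_le_log (by linarith) (by exact_mod_cast h6)
  have he' : (0 : ℝ) < e := by exact_mod_cast he1
  have h7 : c * x / (2 * e * Real.log x) ≤ c * m / Real.log m := by
    have h8 : (x : ℝ) ≤ 2 * m * e := by exact_mod_cast h5
    rw [div_le_div_iff₀ (by positivity) hlm]
    calc c * x * Real.log m ≤ c * (2 * m * e) * Real.log x := by gcongr
      _ = _ := by ring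
  have h9 := (prod_w_ge hz h2).trans (sg_ge hl e)
  refine le_trans (le_of_eq ?_) (mul_le_mul (h7.trans (h3.trans h4)) h9 (by positivity)
    (Nat.cast_nonneg _))
  field_simp
  ring

set_option maxHeartbeats 1600000 in
/-- everything at one scale -/
theorem scale {δ C c η : ℝ} (hδ0 : 0 < δ) (hδ : δ ≤ 1 / 4) (hC : 0 < C)
    (H : ∀ r a y₁ y₂ : ℕ, 1 ≤ r → Nat.Coprime a r → y₁ ≤ y₂ →
      |(((Ioc y₁ y₂).filter (fun p => p.Prime ∧ p ≡ a [MOD r])).card : ℝ) -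
        ((Ioc y₁ y₂).filter Nat.Prime).card / (r.totient : ℝ)| ≤
        C * (y₂ : ℝ) ^ (1 - δ) * Real.log (2 * r))
    (hc : 0 < c) {m₀ : ℕ} (hm : ∀ m : ℕ, m₀ ≤ m → c * m / Real.log m ≤
      ((Ioc m (2 * m)).filter (fun p => p.Prime ∧ p ≡ 1 [MOD 1])).card)
    (hη : 0 < η) (hηδ : η ≤ δ / 10) :
    ∀ᶠ x : ℕ in atTop, ∀ l : Finset ℕ → ℝ, Wts η (δ / 10) x l → ∃ (y : ℕ) (Φ : ℝ),
      c * δ / 51840 ≤ Φ ∧ Φ ≤ 1 ∧ Exch 1 x (fun n => F y n - Φ) ∧
      nuSum η x l (fun n => F y n - Φ) 1 = 0 ∧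
      ∀ r : ℕ, r.Prime → zz η x < r → r ≤ 2 * zz η x →
        |nuSum η x l (fun n => F y n - Φ) r| ≤ x / (r * Real.log x ^ 2) := by
  have hθ : 0 < δ / 10 := by positivity
  filter_upwards [ev_log 1, ev_log (1 / (δ / 10) ^ 2), ev_log (8640 / (c * δ)), ev_pow 6 hη 4608,
    ev_pow 3 hθ (24 * (48 * C + 1)), ev_pow 0 hθ 288, ev_pow 0 hθ m₀, eventually_ge_atTop 2]
    with x hL hLθ hLc hz6 hu3 hu288 hum hx2 l hl
  rw [pow_zero, mul_one] at hu288 hum
  have hx1 : (1 : ℝ) ≤ x := by exact_mod_cast (show 1 ≤ x by omega)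
  have hx0 : (0 : ℝ) < x := by linarith
  obtain ⟨L, hLdef⟩ : ∃ L, L = Real.log x := ⟨_, rfl⟩
  obtain ⟨u, hu⟩ : ∃ u, u = (x : ℝ) ^ (δ / 10) := ⟨_, rfl⟩
  obtain ⟨z, hz⟩ : ∃ z, z = zz η x := ⟨_, rfl⟩
  obtain ⟨Y, hY⟩ : ∃ Y, Y = ⌊u⌋₊ := ⟨_, rfl⟩
  obtain ⟨y, hy⟩ : ∃ y, y = x / (12 * Y) := ⟨_, rfl⟩
  rw [← hLdef] at hL hLθ hLc hz6 hu3
  rw [← hu] at hu3 hu288 hum
  have hu1 : 1 ≤ u := by linarith
  have hu0 : 0 < u := by linarith
  have hu10 : u ^ 10 = (x : ℝ) ^ δ := by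
    rw [hu, ← Real.rpow_natCast, ← Real.rpow_mul hx0.le]; congr 1; push_cast; ring
  have hu10x : u ^ 10 ≤ x := by
    rw [hu10]
    exact (Real.rpow_le_rpow_of_exponent_le hx1 (by linarith : δ ≤ 1)).trans_eq (Real.rpow_one _)
  have hu9x : u ^ 9 ≤ x := (pow_le_pow_right₀ hu1 (by norm_num)).trans hu10x
  have hu2x : 288 * u ^ 2 ≤ x := by
    have h1 : 288 * u ^ 2 ≤ u ^ 3 := by
      linarith only [mul_le_mul_of_nonneg_right hu288 (sq_nonneg u)]
    exact h1.trans ((pow_le_pow_right₀ hu1 (by norm_num)).trans hu10x)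
  have hYu : (Y : ℝ) ≤ u := hY ▸ Nat.floor_le hu0.le
  have hYu' : u < Y + 1 := hY ▸ Nat.lt_floor_add_one u
  have hY1 : 1 ≤ Y := hY ▸ Nat.le_floor (by exact_mod_cast hu1)
  have hYm : m₀ ≤ Y := hY ▸ Nat.le_floor hum
  have hYx : 288 * Y ^ 2 ≤ x := by
    have : (288 : ℝ) * (Y : ℝ) ^ 2 ≤ x := le_trans (by gcongr) hu2x
    exact_mod_cast this
  have hKy : 24 * Y ≤ y := by
    rw [hy, Nat.le_div_iff_mul_le (by omega)]
    calc 24 * Y * (12 * Y) = 288 * Y ^ 2 := by ring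
      _ ≤ x := hYx
  have hyx : 12 * Y * y ≤ x := hy ▸ Nat.mul_div_le _ _
  have hK : 2 * x ≤ 24 * Y * (y + 1) := by
    have h1 : x < 12 * Y * (y + 1) := hy ▸ Nat.lt_mul_div_succ _ (by omega)
    have h2 : 24 * Y * (y + 1) = 2 * (12 * Y * (y + 1)) := by ring
    omega
  have hL6 : 1 ≤ L ^ 6 := one_le_pow₀ hL
  have hzx : (z : ℝ) ≤ (x : ℝ) ^ η := hz ▸ Nat.floor_le (by positivity)
  have hzx' : (x : ℝ) ^ η < z + 1 := hz ▸ Nat.lt_floor_add_one _
  have hzu : (z : ℝ) ≤ u := hzx.trans (hu ▸ Real.rpow_le_rpow_of_exponent_le hx1 hηδ)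
  have hzL : 2304 * L ^ 6 ≤ z := by linarith
  have hz2' : (2 : ℝ) ≤ z := by linarith
  have hz2 : 2 ≤ z := by exact_mod_cast hz2'
  have hup := hl.upper
  have hmass := hl.mass
  have hF := fun r => nu_F (r := r) hδ hC H hl (by omega) hK hKy
  have h1 := fun r => nu_one (r := r) hl
  rw [← hz] at hup hmass hF h1 ⊢
  rw [← hu] at hF h1
  rw [← hLdef]
  obtain ⟨V, hV⟩ : ∃ V, V = ∏ p ∈ pr 0 (z : ℝ), (1 - 1 / (p : ℝ)) := ⟨_, rfl⟩
  obtain ⟨σ, hσ⟩ : ∃ σ, σ = ∑ s ∈ (pr 0 (z : ℝ)).powerset, l s / pd s := ⟨_, rfl⟩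
  have hVσ : V ≤ σ := by
    rw [hV, hσ]
    simp only [BH.pd_inv]
    exact BH.upper _ _ (fun p _ => BH.w01 p) l hup
  have hV1 : V ≤ 1 := hV ▸ V_le _
  have hVz : 1 / (z : ℝ) ≤ V := hV ▸ V_ge (by omega)
  have hT := T_ge hc hm (Y := Y) hz2 hup (show m₀ ≤ y by omega) (show 2 ≤ y by omega) hx2 hyx
  rw [← hV, ← hLdef] at hT
  rw [← hV, ← hσ] at hmass
  rw [← hσ] at h1
  obtain ⟨T, hTd⟩ : ∃ T, T = ∑ e ∈ E (24 * Y), (Pi x y e : ℝ) * sg z l e := ⟨_, rfl⟩
  rw [← hTd] at hT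
  -- the error term
  obtain ⟨E₀, hE₀⟩ : ∃ E₀, E₀ = 48 * C * L * x / u ^ 8 + u := ⟨_, rfl⟩
  have hL0 : 0 < L := by linarith
  have hE1 : u ≤ E₀ := by rw [hE₀]; exact le_add_of_nonneg_left (by positivity)
  have hE2 : ∀ r : ℕ, 1 ≤ r → r ≤ 2 * z →
      u * (((24 * Y : ℕ) : ℝ) * (C * (2 * x : ℝ) ^ (1 - δ) * Real.log (2 * r * u))) ≤ E₀ := by
    intro r hr1 hr2
    have hr1' : (1 : ℝ) ≤ r := by exact_mod_cast hr1
    have hr2' : (r : ℝ) ≤ 2 * z := by exact_mod_cast hr2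
    have a1 : Real.log (2 * r * u) ≤ L := by
      rw [hLdef]
      refine Real.log_le_log (by positivity) ?_
      have : 2 * r * u ≤ 2 * (2 * u) * u := by gcongr; linarith
      linarith only [this, hu2x, sq_nonneg u]
    have a0 : 0 ≤ Real.log (2 * r * u) := Real.log_nonneg
      (one_le_mul_of_one_le_of_one_le (by linarith only [hr1']) hu1)
    have a2 : (2 * x : ℝ) ^ (1 - δ) ≤ 2 * x / u ^ 10 := by
      rw [Real.mul_rpow (by norm_num) hx0.le, Real.rpow_sub hx0, Real.rpow_one, hu10,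
        mul_div_assoc]
      refine mul_le_mul_of_nonneg_right ?_ (by positivity)
      exact (Real.rpow_le_rpow_of_exponent_le (by norm_num) (by linarith : 1 - δ ≤ 1)).trans_eq
        (Real.rpow_one _)
    have a3 : ((24 * Y : ℕ) : ℝ) ≤ 24 * u := by push_cast; linarith
    calc _ ≤ u * (24 * u * (C * (2 * x / u ^ 10) * L)) := by gcongr
      _ = 48 * C * L * x / u ^ 8 := by field_simp; ring
      _ ≤ E₀ := by rw [hE₀]; linarith
  have hE0 : 0 ≤ E₀ := hu0.le.trans hE1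
  have hE3 : 24 * E₀ * z * L ^ 2 ≤ x := by
    have a1 : E₀ * u ≤ (48 * C + 1) * L * x / u := by
      have b1 : 48 * C * L * x / u ^ 8 * u ≤ 48 * C * L * x / u := by
        rw [show 48 * C * L * x / u ^ 8 * u = 48 * C * L * x / u ^ 7 by field_simp]
        exact div_le_div_of_nonneg_left (by positivity) hu0 (le_self_pow₀ hu1 (by norm_num))
      have b2 : u * u ≤ L * x / u := by
        rw [le_div_iff₀ hu0]
        have : u * u * u ≤ u ^ 9 := by
          rw [show u * u * u = u ^ 3 by ring]; exact pow_le_pow_right₀ hu1 (by norm_num)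
        exact (this.trans hu9x).trans (le_mul_of_one_le_left hx0.le hL)
      rw [hE₀, add_mul, show (48 * C + 1) * L * x / u = 48 * C * L * x / u + L * x / u by ring]
      exact add_le_add b1 b2
    calc 24 * E₀ * z * L ^ 2 ≤ 24 * E₀ * u * L ^ 2 := by gcongr
      _ = 24 * L ^ 2 * (E₀ * u) := by ring
      _ ≤ 24 * L ^ 2 * ((48 * C + 1) * L * x / u) := by gcongr
      _ = 24 * (48 * C + 1) * L ^ 3 / u * x := by ring
      _ ≤ 1 * x := mul_le_mul_of_nonneg_right ((div_le_one hu0).2 hu3) hx0.le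
      _ = x := one_mul _
  -- the sums for `r = 1`
  have e₁ : |nuSum η x l (F y) 1 - T| ≤ E₀ := by
    have := hF 1 le_rfl fun p hp _ h => hp.one_lt.ne' (Nat.dvd_one.1 h)
    rw [main_one, ← hTd] at this
    exact this.trans (hE2 1 le_rfl (by omega))
  have e₂ : |nuSum η x l (fun _ => 1) 1 - x * σ| ≤ E₀ := by
    have := h1 1 le_rfl
    rw [Nat.cast_one, div_one] at this
    exact this.trans hE1
  have ha : 0 ≤ nuSum η x l (F y) 1 := nu_nonneg hl fun n => (F01 y n).1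
  have hab : nuSum η x l (F y) 1 ≤ nuSum η x l (fun _ => 1) 1 := by
    have h2 := nu_nonneg hl (g := fun n => -F y n - -1) fun n => by linarith [(F01 y n).2]
    have h3 : nuSum η x l (fun n => -F y n) 1 = -nuSum η x l (F y) 1 := by
      unfold nuSum
      simp only [sum_neg_distrib, mul_neg]
    rw [nu_sub, h3] at h2
    linarith
  have hEV : 24 * L ^ 2 * E₀ ≤ V * x := by
    have h2 : 1 ≤ V * z := by rwa [div_le_iff₀ (by linarith)] at hVz
    have hV0 : 0 ≤ V := le_trans (by positivity) hVz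
    calc 24 * L ^ 2 * E₀ ≤ 24 * L ^ 2 * E₀ * (V * z) := le_mul_of_one_le_right (by positivity) h2
      _ = V * (24 * E₀ * z * L ^ 2) := by ring
      _ ≤ V * x := mul_le_mul_of_nonneg_left hE3 hV0
  have hVx : 0 < V * x := mul_pos (lt_of_lt_of_le (by positivity) hVz) hx0
  have hL2 : 1 ≤ L ^ 2 := one_le_pow₀ hL
  have hEV' : 24 * E₀ ≤ V * x := by
    have := mul_le_mul_of_nonneg_right hL2 hE0
    linarith only [this, hEV]
  have hxσ : V * x ≤ x * σ ∧ x * σ ≤ 2 * (V * x) :=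
    ⟨by linarith only [mul_le_mul_of_nonneg_left hVσ hx0.le],
      by linarith only [mul_le_mul_of_nonneg_left hmass hx0.le]⟩
  have hb : 0 < nuSum η x l (fun _ => 1) 1 := by
    have := abs_le.1 e₂
    linarith [this.1, hxσ.1]
  obtain ⟨a₁, ha₁⟩ : ∃ a, a = nuSum η x l (F y) 1 := ⟨_, rfl⟩
  obtain ⟨b₁, hb₁⟩ : ∃ b, b = nuSum η x l (fun _ => 1) 1 := ⟨_, rfl⟩
  rw [← ha₁] at e₁ ha hab
  rw [← hb₁] at e₂ hab hb
  refine ⟨y, a₁ / b₁, ?_, (div_le_one hb).2 hab, ?_, ?_, ?_⟩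
  · have hcδ : 0 < c * δ := mul_pos hc hδ0
    have a1 : δ / 10 * L ≤ Real.log (Y + 1) := by
      rw [hLdef, ← Real.log_rpow hx0, ← hu]
      exact Real.log_le_log hu0 hYu'.le
    have a2 : c * δ / 8640 * (V * x) ≤ T := by
      refine le_trans ?_ hT
      have hV0 : 0 ≤ V := le_trans (by positivity) hVz
      calc c * δ / 8640 * (V * x) = c * x / (864 * L) * V * (δ / 10 * L) := by field_simp; ring
        _ ≤ _ := by gcongr
    have a3 : 2 * E₀ ≤ c * δ / 8640 * (V * x) := by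
      rw [div_le_iff₀ hcδ] at hLc
      have b1 : 2 ≤ c * δ / 8640 * (24 * L ^ 2) := by
        have := mul_le_mul hLc hL zero_le_one (by positivity)
        linarith only [this]
      calc 2 * E₀ ≤ c * δ / 8640 * (24 * L ^ 2) * E₀ := mul_le_mul_of_nonneg_right b1 hE0
        _ = c * δ / 8640 * (24 * L ^ 2 * E₀) := by ring
        _ ≤ _ := by gcongr
    rw [le_div_iff₀ hb]
    have a4 : b₁ ≤ 3 * (V * x) := by linarith [(abs_le.1 e₂).2, hxσ.2]
    have a5 : c * δ / 51840 * b₁ ≤ c * δ / 51840 * (3 * (V * x)) := by gcongr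
    linarith [(abs_le.1 e₁).1]
  · have key : ∀ p : ℕ, (p : ℝ) ≤ Real.exp (√(Real.log x)) → p ≤ y := by
      intro p hp
      have a1 : √L ≤ δ / 10 * L := by
        rw [Real.sqrt_le_left (by positivity)]
        rw [div_le_iff₀ (by positivity)] at hLθ
        have := mul_le_mul_of_nonneg_left hLθ hL0.le
        linarith only [this]
      have a2 : Real.exp (√(Real.log x)) ≤ u := by
        rw [hu, Real.rpow_def_of_pos hx0, ← hLdef, Real.exp_le_exp]
        linarith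
      have a3 : p ≤ Y := hY ▸ Nat.le_floor (hp.trans a2)
      omega
    intro p p' t hp hp' _ _ _ _ h5 h6 h7 h8
    simp only [F_exch hp hp' (key p h5) (key p' h6) h7 h8]
  · rw [nu_sub, ← ha₁, ← hb₁, div_mul_cancel₀ _ hb.ne', sub_self]
  · intro r hr hzr hr2
    have hr1 : (z : ℝ) + 1 ≤ r := by exact_mod_cast hzr
    have hr2' : (r : ℝ) ≤ 2 * z := by exact_mod_cast hr2
    have e₃ := hF r hr.one_le fun p hp hpz h => by
      have := (Nat.prime_dvd_prime_iff_eq hp hr).1 h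
      omega
    rw [main_prime _ _ _ _ _ hr, ← hTd] at e₃
    rw [nu_sub]
    refine core hx0 hL (by linarith) hr1 hr2' ha hab hb e₁ e₂ (e₃.trans (hE2 r hr.one_le hr2))
      ((h1 r hr.one_le).trans hE1) (by linarith) ?_ ?_ hE3
    · have : L ^ 2 ≤ L ^ 6 := pow_le_pow_right₀ hL (by norm_num)
      linarith
    · have a1 := Tr_le (x := x) (y := y) (K := 24 * Y) hz2 hl.abs_le hr.one_le
      have a2 : Real.log ((24 * Y : ℕ) : ℝ) ≤ L := by
        rw [hLdef]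
        refine Real.log_le_log (by exact_mod_cast (show 0 < 24 * Y by omega)) ?_
        have : 24 * Y ≤ x := hKy.trans (hy ▸ Nat.div_le_self _ _)
        exact_mod_cast this
      have a3 : 48 * L ^ 3 ≤ √(z : ℝ) := Real.le_sqrt_of_sq_le (by linarith only [hzL])
      have a4 : √(z : ℝ) * √(z : ℝ) = z := Real.mul_self_sqrt (by linarith)
      have hr0 : (0 : ℝ) < r := by linarith
      have a5 : 48 * L ^ 3 * √(z : ℝ) ≤ r := by
        have := mul_le_mul_of_nonneg_right a3 (Real.sqrt_nonneg (z : ℝ))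
        linarith
      calc _ ≤ 6 * L ^ 2 * (4 * x * √(z : ℝ) * ((L + L) / r)) := by
            refine mul_le_mul_of_nonneg_left (a1.trans ?_) (by positivity)
            gcongr
        _ = 48 * L ^ 3 * √(z : ℝ) / r * x := by ring
        _ ≤ 1 * x := mul_le_mul_of_nonneg_right ((div_le_one hr0).2 a5) hx0.le
        _ = x := one_mul _

end S36

open S36 in
theorem s36 : MainNuStmt → PrimeAPStmt → PrimeLowStmt → S36Stmt := by
  rintro hM ⟨δ, C, hδ0, hδ, hC, H⟩ hP hfin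
  obtain ⟨c, hc, hev⟩ := hP 1 le_rfl
  obtain ⟨m₀, hm⟩ := eventually_atTop.1 hev
  obtain ⟨B, hB⟩ := hfin.bddAbove
  obtain ⟨η, hη, hηδ, hmain⟩ := hM 1 (δ / 10) (c * δ / 51840 * c / 2) le_rfl (by positivity)
    (by positivity)
  obtain ⟨x, ⟨l, hl, hx⟩, hs, hxB, hxm, hL⟩ := (hmain.and ((scale hδ0 hδ hC H hc hm hη hηδ).and
    ((eventually_ge_atTop B).and ((eventually_ge_atTop m₀).and (ev_log 1))))).exists
  obtain ⟨y, Φ, hΦ, hΦ1, hE, h0, hr⟩ := hs l hl
  have hκ : 0 < c * δ / 51840 := by positivity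
  have h1 := hx (fun n => F y n - Φ) (fun n => by
    have := F01 y n
    rw [abs_le]; constructor <;> linarith) hE (by rw [h0, abs_zero]; positivity) hr
  have h2 : Sp x (fun N => F y (N - 1) - Φ) =
      -(Φ * ((Ioc x (2 * x)).filter (fun p => p.Prime ∧ p ≡ 1 [MOD 1])).card) := by
    unfold Sp
    simp only [Nat.modEq_one, and_true]
    rw [sum_congr rfl (g := fun _ => -Φ), sum_const, nsmul_eq_mul]
    · ring
    · intro p hp
      rw [mem_filter, mem_Ioc] at hp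
      have : F y (p - 1) = 0 := by
        unfold F
        refine if_neg fun h => ?_
        have := hB (show p ∈ {p : ℕ | p.Prime ∧ Squarefree (p - 1) ∧
          Even (ArithmeticFunction.cardFactors (p - 1))} from ⟨hp.2, h.1, h.2.1⟩)
        omega
      rw [this, zero_sub]
  have h3 := hm x hxm
  have hx0 : (0 : ℝ) < x := by
    rcases Nat.eq_zero_or_pos x with rfl | h
    · norm_num at hL
    · exact_mod_cast h
  have h4 : 0 < c * x / Real.log x := by positivity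
  rw [h2, abs_neg, abs_of_nonneg (mul_nonneg (by linarith) (Nat.cast_nonneg _))] at h1
  have h5 := mul_le_mul hΦ h3 h4.le (by linarith)
  have h6 : c * δ / 51840 * c / 2 * x / Real.log x =
      c * δ / 51840 * (c * x / Real.log x) / 2 := by ring
  have h7 := mul_pos hκ h4
  linarith

end Crest.Agent.R26
end

-- ▼ part PVc/R26/All
section

/-! Row 26: the modules composed. -/

set_option autoImplicit false

namespace Crest.Agent.R26

open Finset Filter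
open Crest.Agent.R5 (pr pd ee nit)

theorem traceAll : TraceStmt := trace memId memFree memRest count
theorem minorAll : MinorStmt :=
  minor (trB kerOK traceAll (ff kerOK (ff1 kerOK lat plan)) rho0 rhoD (rhoM kerOK))
    (goodOK kerOK) (badOK kerOK)
theorem cellAll : CellStmt := cell kerOK minorAll (major majCore)

theorem mainNuAll (hZ : R8.ZFStmt) : MainNuStmt :=
  have hψ := psi hZ
  have hL := (primeAP hψ).2
  mainNu fl (mainR (grpOK hL) (tii cellAll (param (primeT hψ) hL))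
    (asm roughOK (box2 hL roughOK (box1 hψ))) miss ramOK)

theorem mainAPAll (hZ : R8.ZFStmt) : R27.MainAP := (mainAP (mainI (mainNuAll hZ))).1
theorem mainAll (hZ : R8.ZFStmt) : MainStmt := (mainAP (mainI (mainNuAll hZ))).2
theorem s36All (hZ : R8.ZFStmt) : S36Stmt :=
  s36 (mainNuAll hZ) (primeAP (psi hZ)).1 (primeAP (psi hZ)).2

end Crest.Agent.R26
end

-- ▼ part PVc/S0022

set_option autoImplicit false
open Crest Crest.NumberTheoryR

namespace Crest.Agent.S0022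

/-- The L-function of any Dirichlet character, of any modulus, does not vanish at any complex point with real part greater than 7/8, the point 1 being excepted when the character is trivial (there the function has a pole). For modulus one this is the Riemann zeta function. -/
theorem result {N : ℕ} [NeZero N]
    (χ : DirichletCharacter ℂ N) (s : ℂ) (hχs : χ ≠ 1 ∨ s ≠ 1) (hs : 7 / 8 < s.re) :
    χ.LFunction s ≠ 0 :=
  Crest.Agent.R17.dirichlet_of_zeroFree Crest.Agent.R17.zeroFree_78 χ s hχs hs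

end Crest.Agent.S0022
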